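import Vale.Agent.Lib.P047F.III.Dz

/-!
# P047F, Part III, module ConclB: shells
-/

open Finset

namespace P047F.III

variable {Q J : Type} [Fintype Q] [Fintype J] {d : ℕ}

/-- shells `M_k < E(c) ≤ 2 M_k`: `φ = φ0 + ⟪l ·,b⟫` from `Shells`;
`|∑_Y ζφ²| ≤ (κ/1000) M_k (1 + 2 sqrt 12 + 12) ≤ κ M_k/50`; `∑_Y φ² ≥ E_Y(c) ≥ κ M_k`;
`∑_{z=s} φ² = (∑_Y φ² + ∑_Y ζφ²)/2 ≥ 0.49 κ M_k`; `dz ≥ 0.99 |φ|` (`abs_le_dz`);
`0.98 * 0.49 κ M_k ≥ (κ/5) 2 M_k`. -/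
theorem nice_shell (A : Q → J → ℤ) {Y : Finset Q} {κ δ lev : ℝ} (hκ : 0 < κ) (hκ1 : κ ≤ 1)
    (hY : Nice A Y κ) (hδ : 0 < δ) {l : Q → E d} (hF : Frame Y lev l) {s z : Q → ℤ}
    (hs : ∀ x, s x = 1 ∨ s x = -1) (hz : ∀ x ∈ Y, z x = 1 ∨ z x = -1)
    (hG : Gram Y l s (κ / 1000) z) {n : ℕ} (hS : Shells A Y l s δ (κ / 1000) n z) {k : ℕ}
    (hk : k ≤ n) {c : J → ℝ} (hc1 : 2 ^ k / (2 * δ) < En A univ c)
    (hc2 : En A univ c ≤ 2 * (2 ^ k / (2 * δ))) :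
    κ / 5 * En A univ c ≤ ∑ x ∈ Y.filter (fun x => z x = s x), dz (ev A c x) ^ 2 := by
  obtain ⟨M, hM⟩ : ∃ M : ℝ, M = 2 ^ k / (2 * δ) := ⟨_, rfl⟩
  have hM0 : 0 < M := by
    rw [hM]
    positivity
  obtain ⟨φ, φ0, b, h1, h2, h3, h4, h5, h6⟩ := hS k hk c hc2
  rw [← hM] at hc1 hc2 h4 h5 h6
  have hGb := hG b
  have hdz : ∀ x, 99 / 100 * |φ x| ≤ dz (ev A c x) ∧ dz (ev A c x) ≤ |φ x| := by
    intro x
    obtain ⟨m, hm⟩ := h1 x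
    exact abs_le_dz hm (h2 x)
  have hdz0 : ∀ x, 0 ≤ dz (ev A c x) := fun x => abs_nonneg _
  -- the signed sum
  obtain ⟨v, hv⟩ : ∃ v : E d, v = ∑ x ∈ Y, (((s x * z x : ℤ) : ℝ) * φ0 x) • l x := ⟨_, rfl⟩
  rw [← hv] at h6
  have hmid : ∑ x ∈ Y, ((s x * z x : ℤ) : ℝ) * φ0 x * inner ℝ (l x) b = inner ℝ v b := by
    rw [hv, sum_inner]
    refine Finset.sum_congr rfl fun x _ => ?_
    rw [real_inner_smul_left]
  have hsplit : ∑ x ∈ Y, ((s x * z x : ℤ) : ℝ) * φ x ^ 2 =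
      ∑ x ∈ Y, ((s x * z x : ℤ) : ℝ) * φ0 x ^ 2 + 2 * inner ℝ v b +
        ∑ x ∈ Y, ((s x * z x : ℤ) : ℝ) * (inner ℝ (l x) b : ℝ) ^ 2 := by
    rw [← hmid, Finset.mul_sum, ← Finset.sum_add_distrib, ← Finset.sum_add_distrib]
    refine Finset.sum_congr rfl fun x _ => ?_
    rw [h3 x]
    ring
  have hvb : 2 * |(inner ℝ v b : ℝ)| ≤ 7 * κ / 1000 * M := by
    have e1 : |(inner ℝ v b : ℝ)| ≤ ‖v‖ * ‖b‖ := abs_real_inner_le_norm v b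
    have e2 : 2 * (‖v‖ * ‖b‖) ≤ 4000 / κ * ‖v‖ ^ 2 + κ / 4000 * ‖b‖ ^ 2 := by
      have e3 : 4000 / κ * ‖v‖ ^ 2 + κ / 4000 * ‖b‖ ^ 2 - 2 * (‖v‖ * ‖b‖) =
          κ / 4000 * (4000 / κ * ‖v‖ - ‖b‖) ^ 2 := by
        field_simp
        ring
      have e4 : 0 ≤ κ / 4000 * (4000 / κ * ‖v‖ - ‖b‖) ^ 2 := by positivity
      linarith
    have e5 : 4000 / κ * ‖v‖ ^ 2 ≤ 4 * κ / 1000 * M := by
      have e6 : 4000 / κ * ‖v‖ ^ 2 ≤ 4000 / κ * ((κ / 1000) ^ 2 * M) :=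
        mul_le_mul_of_nonneg_left h6 (by positivity)
      have e7 : 4000 / κ * ((κ / 1000) ^ 2 * M) = 4 * κ / 1000 * M := by
        field_simp
        ring
      linarith
    have e8 : κ / 4000 * ‖b‖ ^ 2 ≤ κ / 4000 * (12 * M) :=
      mul_le_mul_of_nonneg_left h4 (by positivity)
    linarith
  have hb : κ / 1000 * ‖b‖ ^ 2 ≤ κ / 1000 * (12 * M) :=
    mul_le_mul_of_nonneg_left h4 (by positivity)
  have hsig : - (κ / 50 * M) ≤ ∑ x ∈ Y, ((s x * z x : ℤ) : ℝ) * φ x ^ 2 := by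
    rw [hsplit]
    have e1 := (abs_le.1 h5).1
    have e2 := (abs_le.1 hGb).1
    have e3 := neg_abs_le (inner ℝ v b : ℝ)
    linarith
  -- the total sum
  have htot : κ * M ≤ ∑ x ∈ Y, φ x ^ 2 := by
    have e1 : κ * En A univ c ≤ En A Y c := hY c
    have e2 : En A Y c ≤ ∑ x ∈ Y, φ x ^ 2 := by
      unfold En
      refine Finset.sum_le_sum fun x _ => ?_
      rw [← sq_abs (φ x)]
      exact pow_le_pow_left₀ (hdz0 x) (hdz x).2 2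
    have e3 : κ * M ≤ κ * En A univ c := mul_le_mul_of_nonneg_left hc1.le hκ.le
    linarith
  have hfil := sum_filter_eq hs hz (fun x => φ x ^ 2)
  have hlow : 98 / 100 * ∑ x ∈ Y.filter (fun x => z x = s x), φ x ^ 2 ≤
      ∑ x ∈ Y.filter (fun x => z x = s x), dz (ev A c x) ^ 2 := by
    rw [Finset.mul_sum]
    refine Finset.sum_le_sum fun x _ => ?_
    have e1 := pow_le_pow_left₀ (by positivity) (hdz x).1 2
    rw [mul_pow, sq_abs] at e1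
    nlinarith [sq_nonneg (φ x)]
  have hfin : κ / 5 * En A univ c ≤ κ / 5 * (2 * M) :=
    mul_le_mul_of_nonneg_left hc2 (by positivity)
  have hκM : 0 < κ * M := mul_pos hκ hM0
  rw [hfil] at hlow
  linarith

end P047F.III
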