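import Vale.Agent.Lib.P047F.III.ConclA
import Vale.Agent.Lib.P047F.III.ConclB

/-!
# P047F, Part III, module Concl: from the Gram and shell properties to niceness
-/

open Finset

namespace P047F.III

variable {Q J : Type} [Fintype Q] [Fintype J] {d : ℕ}

/-- assembly: `E(c) ≤ 2^n/4` (`dz ≤ 1/2`), so `E(c) ≤ M_0` or `M_k < E(c) ≤ 2 M_k` with `k ≤ n`
(`δ ≤ 1`). -/
theorem nice_of (A : Q → J → ℤ) {Y : Finset Q} {κ δ lev : ℝ} (hκ : 0 < κ) (hκ1 : κ ≤ 1)
    (hY : Nice A Y κ) (hA : Good A δ (1 / 1000)) (hδ : 0 < δ) (hδ1 : δ ≤ 1) {l : Q → E d}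
    (hF : Frame Y lev l) (Φ : E d ≃ₗ[ℝ] (J → ℝ)) (hΦ : ∀ g x, ev A (Φ g) x = inner ℝ (l x) g)
    {s z : Q → ℤ} (hs : ∀ x, s x = 1 ∨ s x = -1) (hz : ∀ x ∈ Y, z x = 1 ∨ z x = -1) {n : ℕ}
    (hcard : Fintype.card Q = 2 ^ n) (hG : Gram Y l s (κ / 1000) z)
    (hS : Shells A Y l s δ (κ / 1000) n z) (Y' : Finset Q)
    (hY' : ∀ x ∈ Y, z x = s x → x ∈ Y') : Nice A Y' (κ / 5) := by
  intro c
  have h1 : ∑ x ∈ Y.filter (fun x => z x = s x), dz (ev A c x) ^ 2 ≤ En A Y' c := by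
    rw [En]
    refine sum_le_sum_of_subset_of_nonneg ?_ fun x _ _ => sq_nonneg _
    intro x hx
    rw [mem_filter] at hx
    exact hY' x hx.1 hx.2
  refine le_trans ?_ h1
  by_cases h0 : En A univ c ≤ 1 / (2 * δ)
  · exact nice_small A hκ hκ1 hY hA hδ hF Φ hΦ hs hz hG h0
  push Not at h0
  have htop : En A univ c ≤ 2 * (2 ^ n / (2 * δ)) := by
    have h2 : En A univ c ≤ 2 ^ n * (1 / 4) := by
      have h3 : En A univ c ≤ (univ : Finset Q).card • ((1 : ℝ) / 4) := by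
        rw [En]
        refine sum_le_card_nsmul _ _ _ fun x _ => ?_
        have h4 : |ev A c x - round (ev A c x)| ≤ 1 / 2 := abs_sub_round _
        have h5 : dz (ev A c x) ^ 2 = |ev A c x - round (ev A c x)| ^ 2 := rfl
        rw [h5]
        nlinarith [abs_nonneg (ev A c x - round (ev A c x))]
      rw [card_univ, hcard, nsmul_eq_mul] at h3
      push_cast at h3
      exact h3
    have h3 : (0 : ℝ) < 2 ^ n := by positivity
    have h4 : 2 * ((2 : ℝ) ^ n / (2 * δ)) = 2 ^ n / δ := by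
      field_simp
    rw [h4, le_div_iff₀ hδ]
    have h5 : 0 ≤ En A univ c := by
      rw [En]
      exact sum_nonneg fun x _ => sq_nonneg _
    nlinarith
  classical
  have hex : ∃ k, En A univ c ≤ 2 * (2 ^ k / (2 * δ)) := ⟨n, htop⟩
  obtain ⟨k, hk⟩ : ∃ k, k = Nat.find hex := ⟨_, rfl⟩
  have hk2 : En A univ c ≤ 2 * (2 ^ k / (2 * δ)) := by
    rw [hk]
    exact Nat.find_spec hex
  have hkn : k ≤ n := by
    rw [hk]
    exact Nat.find_min' hex htop
  have hk1 : 2 ^ k / (2 * δ) < En A univ c := by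
    rcases Nat.eq_zero_or_pos k with h | h
    · rw [h, pow_zero]
      exact h0
    · obtain ⟨j, rfl⟩ : ∃ j, k = j + 1 := ⟨k - 1, by omega⟩
      have h2 : ¬ En A univ c ≤ 2 * (2 ^ j / (2 * δ)) := Nat.find_min hex (by omega)
      push Not at h2
      rw [pow_succ]
      calc (2 : ℝ) ^ j * 2 / (2 * δ) = 2 * (2 ^ j / (2 * δ)) := by ring
        _ < En A univ c := h2
  exact nice_shell A hκ hκ1 hY hδ hF hs hz hG hS hkn hk1 hk2

end P047F.III
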