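import Vale.Agent.Lib.P047F.III.Lin

/-!
# P047F, Part III, module Fam: union bound over tests
-/

open Finset

namespace P047F.III

variable {Q : Type} {d : ℕ}

open Classical in
/-- failure of one test.  T1 with `h = s φ²` (`∑_Y h² ≤ ∑_Y φ² ≤ 3M`, `t = ε M`):
`24 exp (-ε²M/(12K))`; T2 with `s φ`, `M ↦ 3M`, `R = ε² M`: `12 exp (-ε²M/(8K) + 3 lev M/2)`. -/
theorem bad_card {Y : Finset Q} {l : Q → E d} {lev K : ℝ} {V : Finset (Q → ℤ)}
    (hF : Frame Y lev l) (hlev : 0 ≤ lev) (hV : SG Y K V) (hK : 0 < K)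
    {s : Q → ℤ} (hs : ∀ x, s x = 1 ∨ s x = -1) {φ : Q → ℝ} {ε M : ℝ} (hφ : Valid Y φ ε M) :
    ((V.filter fun z => ¬ Ok Y l s z φ ε M).card : ℝ) ≤ wt K lev ε M * V.card := by
  have hM := hφ.pos
  have he := hφ.eps
  have hs2 : ∀ x, ((s x : ℤ) : ℝ) ^ 2 = 1 := by
    intro x
    rcases hs x with h | h <;> rw [h] <;> norm_num
  have hsabs : ∀ x, |((s x : ℤ) : ℝ)| = 1 := by
    intro x
    rcases hs x with h | h <;> rw [h] <;> norm_num
  have hH : ∑ x ∈ Y, ((s x : ℝ) * φ x ^ 2) ^ 2 ≤ 3 * M := by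
    refine (Finset.sum_le_sum fun x hx => ?_).trans hφ.en
    have h1 := hφ.bd x hx
    have h2 : φ x ^ 2 ≤ 1 := by
      rw [← sq_abs]
      exact pow_le_one₀ (abs_nonneg _) h1
    have h3 := sq_nonneg (φ x)
    rw [mul_pow, hs2, one_mul]
    nlinarith
  have hb : ∀ x ∈ Y, |(s x : ℝ) * φ x| ≤ 1 := by
    intro x hx
    rw [abs_mul, hsabs, one_mul]
    exact hφ.bd x hx
  have hen : ∑ x ∈ Y, ((s x : ℝ) * φ x) ^ 2 ≤ 3 * M := by
    refine (Finset.sum_le_sum fun x hx => ?_).trans hφ.en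
    rw [mul_pow, hs2, one_mul]
  have t1 := tail_T1 hV hK (fun x => (s x : ℝ) * φ x ^ 2) hH (by positivity)
    (show 0 < ε * M by positivity)
  have t2 := tail_T2 hF hlev hV hK (fun x => (s x : ℝ) * φ x) hb hen (ε ^ 2 * M)
  have hsub : (V.filter fun z => ¬ Ok Y l s z φ ε M) ⊆
      (V.filter fun z => ε * M < |∑ x ∈ Y, (z x : ℝ) * ((s x : ℝ) * φ x ^ 2)|) ∪
      (V.filter fun z => ε ^ 2 * M < ‖∑ x ∈ Y, ((z x : ℝ) * ((s x : ℝ) * φ x)) • l x‖ ^ 2) := by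
    intro z hz
    rw [Finset.mem_filter] at hz
    rw [Finset.mem_union, Finset.mem_filter, Finset.mem_filter]
    by_contra hcon
    rw [not_or] at hcon
    refine hz.2 ⟨?_, ?_⟩
    · have h1 := not_lt.1 fun h => hcon.1 ⟨hz.1, h⟩
      refine le_trans (le_of_eq ?_) h1
      congr 1
      refine Finset.sum_congr rfl fun x _ => ?_
      push_cast
      ring
    · have h1 := not_lt.1 fun h => hcon.2 ⟨hz.1, h⟩
      refine le_trans (le_of_eq ?_) h1
      congr 2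
      refine Finset.sum_congr rfl fun x _ => ?_
      congr 1
      push_cast
      ring
  have hcard : ((V.filter fun z => ¬ Ok Y l s z φ ε M).card : ℝ) ≤
      ((V.filter fun z => ε * M < |∑ x ∈ Y, (z x : ℝ) * ((s x : ℝ) * φ x ^ 2)|).card : ℝ) +
      ((V.filter fun z => ε ^ 2 * M <
        ‖∑ x ∈ Y, ((z x : ℝ) * ((s x : ℝ) * φ x)) • l x‖ ^ 2).card : ℝ) := by
    exact_mod_cast (Finset.card_le_card hsub).trans (Finset.card_union_le _ _)
  have hVc : (0 : ℝ) ≤ V.card := Nat.cast_nonneg _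
  have e1 : Real.exp (-(ε * M) ^ 2 / (4 * K * (3 * M))) ≤
      Real.exp ((-(ε ^ 2 / (12 * K)) + 3 * lev / 2) * M) := by
    rw [Real.exp_le_exp]
    have h1 : -(ε * M) ^ 2 / (4 * K * (3 * M)) = -(ε ^ 2 / (12 * K)) * M := by
      field_simp
      ring
    rw [h1]
    have h2 : 0 ≤ 3 * lev / 2 * M := by positivity
    linarith
  have e2 : Real.exp (-(ε ^ 2 * M) / (8 * K) + lev * (3 * M) / 2) ≤
      Real.exp ((-(ε ^ 2 / (12 * K)) + 3 * lev / 2) * M) := by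
    rw [Real.exp_le_exp]
    have h1 : -(ε ^ 2 * M) / (8 * K) = -(ε ^ 2 / (12 * K)) * M - ε ^ 2 / (24 * K) * M := by
      field_simp
      ring
    rw [h1]
    have h2 : 0 ≤ ε ^ 2 / (24 * K) * M := by positivity
    linarith
  have m1 : 24 * Real.exp (-(ε * M) ^ 2 / (4 * K * (3 * M))) * V.card ≤
      24 * Real.exp ((-(ε ^ 2 / (12 * K)) + 3 * lev / 2) * M) * V.card :=
    mul_le_mul_of_nonneg_right (by linarith) hVc
  have m2 : 12 * Real.exp (-(ε ^ 2 * M) / (8 * K) + lev * (3 * M) / 2) * V.card ≤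
      12 * Real.exp ((-(ε ^ 2 / (12 * K)) + 3 * lev / 2) * M) * V.card :=
    mul_le_mul_of_nonneg_right (by linarith) hVc
  unfold wt
  linarith

/-- union bound: both families have total weight `≤ 1/4`, `V` nonempty. -/
theorem exists_of_fam {Y : Finset Q} {l : Q → E d} {lev K : ℝ} {V : Finset (Q → ℤ)}
    (hF : Frame Y lev l) (hlev : 0 ≤ lev) (hV : SG Y K V) (hK : 0 < K)
    {s : Q → ℤ} (hs : ∀ x, s x = 1 ∨ s x = -1) {P1 P2 : (Q → ℤ) → Prop}
    (h1 : HasFam Y l s K lev P1) (h2 : HasFam Y l s K lev P2) :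
    ∃ z ∈ V, P1 z ∧ P2 z := by
  classical
  obtain ⟨ι1, _, φ1, ε1, M1, hv1, hw1, hP1⟩ := h1
  obtain ⟨ι2, _, φ2, ε2, M2, hv2, hw2, hP2⟩ := h2
  by_contra hcon
  have hsub : V ⊆ (Finset.univ.biUnion fun t => V.filter fun z => ¬ Ok Y l s z (φ1 t) (ε1 t) (M1 t)) ∪
      (Finset.univ.biUnion fun t => V.filter fun z => ¬ Ok Y l s z (φ2 t) (ε2 t) (M2 t)) := by
    intro z hz
    by_contra hz'
    rw [Finset.mem_union, not_or, Finset.mem_biUnion, Finset.mem_biUnion] at hz'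
    refine hcon ⟨z, hz, hP1 z (hV.sgn z hz) fun t => ?_, hP2 z (hV.sgn z hz) fun t => ?_⟩
    · by_contra ht
      exact hz'.1 ⟨t, Finset.mem_univ _, Finset.mem_filter.2 ⟨hz, ht⟩⟩
    · by_contra ht
      exact hz'.2 ⟨t, Finset.mem_univ _, Finset.mem_filter.2 ⟨hz, ht⟩⟩
  have c1 : (V.card : ℝ) ≤ ∑ t, ((V.filter fun z => ¬ Ok Y l s z (φ1 t) (ε1 t) (M1 t)).card : ℝ) +
      ∑ t, ((V.filter fun z => ¬ Ok Y l s z (φ2 t) (ε2 t) (M2 t)).card : ℝ) := by
    have h := (Finset.card_le_card hsub).trans ((Finset.card_union_le _ _).trans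
      (Nat.add_le_add Finset.card_biUnion_le Finset.card_biUnion_le))
    exact_mod_cast h
  have c2 : ∑ t, ((V.filter fun z => ¬ Ok Y l s z (φ1 t) (ε1 t) (M1 t)).card : ℝ) ≤
      1 / 4 * V.card := by
    refine (Finset.sum_le_sum fun t _ => bad_card hF hlev hV hK hs (hv1 t)).trans ?_
    rw [← Finset.sum_mul]
    exact mul_le_mul_of_nonneg_right hw1 (Nat.cast_nonneg _)
  have c3 : ∑ t, ((V.filter fun z => ¬ Ok Y l s z (φ2 t) (ε2 t) (M2 t)).card : ℝ) ≤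
      1 / 4 * V.card := by
    refine (Finset.sum_le_sum fun t _ => bad_card hF hlev hV hK hs (hv2 t)).trans ?_
    rw [← Finset.sum_mul]
    exact mul_le_mul_of_nonneg_right hw2 (Nat.cast_nonneg _)
  have c4 : (0 : ℝ) < V.card := by exact_mod_cast hV.ne.card_pos
  linarith

end P047F.III
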