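import Vale.Agent.Lib.P047F.III.NetP

/-!
# P047F, Part III, module Net: nets
-/

open Finset MeasureTheory

namespace P047F.III

variable {Q : Type} [Fintype Q] {d : ℕ}

/-- maximal separated subset of `Ball l M` (cardinalities bounded by `packing`). -/
theorem exists_net [Nonempty Q] (l : Q → E d) {lev : ℝ} (hlev : 0 < lev)
    (hl : ∀ x, ‖l x‖ ^ 2 ≤ lev) {M η : ℝ} (hM : 0 ≤ M) (hη : 0 < η) :
    ∃ N : Finset (E d),
      (N.card : ℝ) ≤ 2 * Real.exp (4 * lev * Real.log (4 * Fintype.card Q) * M / η ^ 2) ∧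
      IsNet l M η N := by
  classical
  let V : Finset (E d) → Prop := fun P => (∀ b ∈ P, b ∈ Ball l M) ∧
    ∀ b ∈ P, ∀ b' ∈ P, b ≠ b' → ∃ x, η < |(inner ℝ (l x) (b - b') : ℝ)|
  have hV : ∀ P, V P → (P.card : ℝ) ≤
      2 * Real.exp (4 * lev * Real.log (4 * Fintype.card Q) * M / η ^ 2) := fun P hP =>
    packing l hlev hl hM hη P (fun b hb => (hP.1 b hb).1) hP.2
  by_contra hcon
  have hext : ∀ P, V P → ∃ P', V P' ∧ P'.card = P.card + 1 := by
    intro P hP
    have h1 : ¬ ∀ e ∈ Ball l M, ∃ b ∈ P, ∀ x, |(inner ℝ (l x) (e - b) : ℝ)| ≤ η := fun h2 =>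
      hcon ⟨P, hV P hP, hP.1, h2⟩
    push Not at h1
    obtain ⟨e, he, hne⟩ := h1
    have heP : e ∉ P := by
      intro h
      obtain ⟨x, hx⟩ := hne e h
      rw [sub_self, inner_zero_right, abs_zero] at hx
      linarith
    refine ⟨insert e P, ⟨fun b hb => ?_, fun b hb b' hb' hbb => ?_⟩,
      Finset.card_insert_of_notMem heP⟩
    · rcases Finset.mem_insert.1 hb with rfl | hb
      · exact he
      · exact hP.1 b hb
    · rcases Finset.mem_insert.1 hb with h6 | h6
      · rcases Finset.mem_insert.1 hb' with h7 | h7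
        · exact absurd (h6.trans h7.symm) hbb
        · rw [h6]
          exact hne b' h7
      · rcases Finset.mem_insert.1 hb' with h7 | h7
        · obtain ⟨x, hx⟩ := hne b h6
          refine ⟨x, ?_⟩
          have h3 : b - b' = -(e - b) := by rw [h7]; abel
          rw [h3, inner_neg_right, abs_neg]
          exact hx
        · exact hP.2 b h6 b' h7 hbb
  have hall : ∀ n : ℕ, ∃ P, V P ∧ P.card = n := by
    intro n
    induction n with
    | zero => exact ⟨∅, ⟨by simp, by simp⟩, Finset.card_empty⟩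
    | succ n ih =>
      obtain ⟨P, hP, hn⟩ := ih
      obtain ⟨P', hP', hn'⟩ := hext P hP
      exact ⟨P', hP', by rw [hn', hn]⟩
  obtain ⟨P, hP, hn⟩ := hall
    (⌊2 * Real.exp (4 * lev * Real.log (4 * Fintype.card Q) * M / η ^ 2)⌋₊ + 1)
  have h4 := hV P hP
  rw [hn] at h4
  push_cast at h4
  have h5 := Nat.lt_floor_add_one
    (2 * Real.exp (4 * lev * Real.log (4 * Fintype.card Q) * M / η ^ 2))
  linarith

end P047F.III
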