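import Vale.Agent.Lib.P047F.III.GramC
import Vale.Agent.Lib.P047F.III.Net

/-!
# P047F, Part III, module GramB: the Gram property follows from a small family of tests
-/

open Finset

namespace P047F.III

variable {Q : Type} [Fintype Q] {d : ℕ}

/-- the total weight of one level -/
private theorem GramB_level {K lev ε0 : ℝ} (hK : 0 < K)
    {n k I i1 i : ℕ} (hnum : NumG n K lev ε0 k I i1) {c : ℝ}
    (hc : c ≤ 2 * Real.exp (4 * lev * Real.log (4 * 2 ^ n) * 2 ^ i / ((1 / 2 : ℝ) ^ k) ^ 2))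
    (hi : 1 / lev ≤ (2 : ℝ) ^ i) :
    c * wt K lev ((1 / 2) ^ k) (2 ^ i) ≤ 72 * Real.exp (-((1 / 4 : ℝ) ^ k / (24 * K)) / lev) := by
  have e1 : ((1 / 2 : ℝ) ^ k) ^ 2 = (1 / 4 : ℝ) ^ k := by
    rw [← pow_mul, mul_comm, pow_mul]
    norm_num
  have e2 : ((1 / 4 : ℝ) ^ k) * 4 ^ k = 1 := by
    rw [← mul_pow]
    norm_num
  have e3 : (0 : ℝ) < (1 / 4 : ℝ) ^ k := by positivity
  have e4 : 4 * lev * Real.log (4 * 2 ^ n) * 2 ^ i / ((1 / 2 : ℝ) ^ k) ^ 2 =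
      4 * lev * Real.log (4 * 2 ^ n) * 4 ^ k * 2 ^ i := by
    rw [e1, div_eq_iff e3.ne']
    calc 4 * lev * Real.log (4 * 2 ^ n) * 2 ^ i
        = 4 * lev * Real.log (4 * 2 ^ n) * 2 ^ i * (((1 / 4 : ℝ) ^ k) * 4 ^ k) := by
          rw [e2, mul_one]
      _ = _ := by ring
  rw [e4] at hc
  unfold wt
  rw [e1]
  have h1 : c * (36 * Real.exp ((-((1 / 4 : ℝ) ^ k / (12 * K)) + 3 * lev / 2) * 2 ^ i)) ≤
      2 * Real.exp (4 * lev * Real.log (4 * 2 ^ n) * 4 ^ k * 2 ^ i) *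
        (36 * Real.exp ((-((1 / 4 : ℝ) ^ k / (12 * K)) + 3 * lev / 2) * 2 ^ i)) :=
    mul_le_mul_of_nonneg_right hc (by positivity)
  refine h1.trans ?_
  have e5 : 2 * Real.exp (4 * lev * Real.log (4 * 2 ^ n) * 4 ^ k * 2 ^ i) *
        (36 * Real.exp ((-((1 / 4 : ℝ) ^ k / (12 * K)) + 3 * lev / 2) * 2 ^ i)) =
      72 * Real.exp ((4 * lev * Real.log (4 * 2 ^ n) * 4 ^ k + 3 * lev / 2 -
        (1 / 4 : ℝ) ^ k / (12 * K)) * 2 ^ i) := by
    have : (4 * lev * Real.log (4 * 2 ^ n) * 4 ^ k + 3 * lev / 2 -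
        (1 / 4 : ℝ) ^ k / (12 * K)) * 2 ^ i = 4 * lev * Real.log (4 * 2 ^ n) * 4 ^ k * 2 ^ i +
        (-((1 / 4 : ℝ) ^ k / (12 * K)) + 3 * lev / 2) * 2 ^ i := by ring
    rw [this, Real.exp_add]
    ring
  rw [e5]
  refine mul_le_mul_of_nonneg_left (Real.exp_le_exp.2 ?_) (by norm_num)
  have h2 : 4 * lev * Real.log (4 * 2 ^ n) * 4 ^ k + 3 * lev / 2 - (1 / 4 : ℝ) ^ k / (12 * K) ≤
      -((1 / 4 : ℝ) ^ k / (24 * K)) := by
    have h3 := hnum.g2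
    have h4 : (1 / 4 : ℝ) ^ k / (12 * K) = 2 * ((1 / 4 : ℝ) ^ k / (24 * K)) := by
      field_simp
      norm_num
    linarith
  have h5 : (0 : ℝ) < (1 / 4 : ℝ) ^ k / (24 * K) := by positivity
  calc (4 * lev * Real.log (4 * 2 ^ n) * 4 ^ k + 3 * lev / 2 - (1 / 4 : ℝ) ^ k / (12 * K)) * 2 ^ i
      ≤ -((1 / 4 : ℝ) ^ k / (24 * K)) * 2 ^ i := mul_le_mul_of_nonneg_right h2 (by positivity)
    _ ≤ -((1 / 4 : ℝ) ^ k / (24 * K)) * (1 / lev) := by
      exact mul_le_mul_of_nonpos_left hi (by linarith)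
    _ = _ := by ring

/-- For `i ≤ i1` with `1/lev ≤ 2^i` take the net `N_i` of `exists_net` (`M = 2^i`, `η = 2^{-k}`);
index type `ι = Σ i : Fin (i1+1), {b // b ∈ N_i}` (empty `N_i` if `¬ 1/lev ≤ 2^i`), tests
`(x ↦ ⟪l x, b⟫, 2^{-k}, 2^i)`: valid since `∑_Y ⟪l x,b⟫² = ‖b‖² ≤ 2^i`.
Weight of level `i`: `2 exp (4 lev log(4·2^n) 4^k 2^i) * 36 exp ((-4^{-k}/(12K) + 3 lev/2) 2^i)
≤ 72 exp (-(4^{-k}/(24K)) 2^i) ≤ 72 exp (-(4^{-k}/(24K))/lev)` by `g2`; sum over `i`: `g3`.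
Deterministic part: `gram_of_levels`. -/
theorem hasFam_gram {Y : Finset Q} {l : Q → E d} {s : Q → ℤ} {lev K : ℝ}
    (hF : Frame Y lev l) (hlev : 0 < lev) (hlev1 : lev ≤ 1) (hK : 0 < K)
    (hs : ∀ x, s x = 1 ∨ s x = -1) {n k I i1 : ℕ} {ε0 : ℝ}
    (hcard : Fintype.card Q = 2 ^ n) (hnum : NumG n K lev ε0 k I i1) :
    HasFam Y l s K lev (Gram Y l s ε0) := by
  classical
  have hQ : Nonempty Q := Fintype.card_pos_iff.1 (by rw [hcard]; positivity)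
  have hcardR : (Fintype.card Q : ℝ) = 2 ^ n := by
    rw [hcard]
    push_cast
    rfl
  have hη : (0 : ℝ) < (1 / 2 : ℝ) ^ k := by positivity
  have hnet : ∀ i : ℕ, ∃ N : Finset (E d),
      (N.card : ℝ) ≤ 2 * Real.exp (4 * lev * Real.log (4 * 2 ^ n) * 2 ^ i /
        ((1 / 2 : ℝ) ^ k) ^ 2) ∧ IsNet l (2 ^ i) ((1 / 2) ^ k) N := by
    intro i
    have h := exists_net l hlev hF.lev_le (M := 2 ^ i) (η := (1 / 2 : ℝ) ^ k) (by positivity) hη
    rw [hcardR] at h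
    exact h
  choose N0 hN0c hN0 using hnet
  have hvalid : ∀ (i : ℕ) (b : E d), b ∈ N0 i →
      Valid Y (fun x => inner ℝ (l x) b) ((1 / 2 : ℝ) ^ k) (2 ^ i) := by
    intro i b hb
    have h := (hN0 i).1 b hb
    refine ⟨hη, by positivity, fun x _ => h.2 x, ?_⟩
    rw [hF.pars]
    have h2 : (0 : ℝ) < 2 ^ i := by positivity
    linarith [h.1]
  set N : ℕ → Finset (E d) := fun i => if 1 / lev ≤ (2 : ℝ) ^ i then N0 i else ∅ with hN
  have hNsub : ∀ i, ∀ b ∈ N i, b ∈ N0 i := by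
    intro i b hb
    simp only [hN] at hb
    split_ifs at hb with h
    · exact hb
    · exact absurd hb (Finset.notMem_empty b)
  refine ⟨Σ i : Fin (i1 + 1), {b // b ∈ N i}, inferInstance,
    fun t x => inner ℝ (l x) t.2.1, fun _ => (1 / 2 : ℝ) ^ k, fun t => 2 ^ (t.1 : ℕ),
    fun t => hvalid _ _ (hNsub _ _ t.2.2), ?_, ?_⟩
  · rw [Fintype.sum_sigma]
    have h1 : ∀ i : Fin (i1 + 1),
        ∑ _b : {b // b ∈ N i}, wt K lev ((1 / 2 : ℝ) ^ k) (2 ^ (i : ℕ)) ≤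
          72 * Real.exp (-((1 / 4 : ℝ) ^ k / (24 * K)) / lev) := by
      intro i
      rw [Finset.sum_const, nsmul_eq_mul, Finset.card_univ, Fintype.card_coe]
      by_cases h : 1 / lev ≤ (2 : ℝ) ^ (i : ℕ)
      · have h2 : N i = N0 i := by
          simp only [hN]
          rw [if_pos h]
        rw [h2]
        exact GramB_level hK hnum (hN0c i) h
      · have h2 : N i = ∅ := by
          simp only [hN]
          rw [if_neg h]
        rw [h2, Finset.card_empty, Nat.cast_zero, zero_mul]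
        positivity
    refine (Finset.sum_le_sum fun i _ => h1 i).trans ?_
    rw [Finset.sum_const, nsmul_eq_mul, Finset.card_univ, Fintype.card_fin]
    have h3 := hnum.g3
    push_cast
    linarith
  · intro z hz hok
    refine gram_of_levels hF hlev hlev1 hs hz hcard hnum.top hnum.g1 ?_
    intro i hi hl
    refine ⟨N0 i, hN0 i, fun b hb => ?_⟩
    have hb' : b ∈ N i := by
      simp only [hN]
      rw [if_pos hl]
      exact hb
    exact hok ⟨⟨i, by omega⟩, ⟨b, hb'⟩⟩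

end P047F.III
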