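import Vale.Agent.Lib.P047F.III.Defs

/-!
# P047F, Part III, module Num: the numerical conditions hold for large `n`
-/

open Finset Filter

namespace P047F.III

private theorem Num_tend (a A B : ℝ) (ha : 0 < a) :
    Tendsto (fun n : ℕ => (A * n + B) * Real.exp (-(a * n))) atTop (nhds 0) := by
  have h1 : Tendsto (fun n : ℕ => a * (n : ℝ)) atTop atTop :=
    tendsto_natCast_atTop_atTop.const_mul_atTop ha
  have h2 := (Real.tendsto_pow_mul_exp_neg_atTop_nhds_zero 1).comp h1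
  have h3 := (Real.tendsto_pow_mul_exp_neg_atTop_nhds_zero 0).comp h1
  have h4 := (h2.const_mul (A / a)).add (h3.const_mul B)
  simp only [mul_zero, add_zero] at h4
  refine h4.congr fun n => ?_
  simp only [Function.comp, pow_one, pow_zero, one_mul]
  field_simp

private theorem Num_ev (a A B : ℝ) (ha : 0 < a) {ε : ℝ} (hε : 0 < ε) :
    ∃ n0 : ℕ, ∀ n : ℕ, n0 ≤ n → (A * n + B) * Real.exp (-(a * n)) ≤ ε := by
  obtain ⟨n0, h⟩ := eventually_atTop.1 ((Num_tend a A B ha).eventually (gt_mem_nhds hε))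
  exact ⟨n0, fun n hn => (h n hn).le⟩

private theorem Num_half_pow (k : ℕ) : (1 / 2 : ℝ) ^ k ≤ Real.exp (-(k / 2 : ℝ)) := by
  have h1 : (1 / 2 : ℝ) ≤ Real.exp (-(1 / 2)) := by
    have := Real.add_one_le_exp (-(1 / 2) : ℝ)
    linarith
  calc (1 / 2 : ℝ) ^ k ≤ Real.exp (-(1 / 2)) ^ k := pow_le_pow_left₀ (by norm_num) h1 k
    _ = Real.exp (-(k / 2 : ℝ)) := by
        rw [← Real.exp_nat_mul]
        congr 1
        ring

private theorem Num_sixteen_pow (k : ℕ) : (16 : ℝ) ^ k ≤ Real.exp (3 * k) := by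
  have h1 : (16 : ℝ) ≤ Real.exp 3 := by
    have h2 : Real.exp 3 = Real.exp 1 ^ 3 := by
      rw [← Real.exp_nat_mul]
      norm_num
    rw [h2]
    have h3 : (2.7182818283 : ℝ) < Real.exp 1 := Real.exp_one_gt_d9
    calc (16 : ℝ) ≤ 2.7182818283 ^ 3 := by norm_num
      _ ≤ Real.exp 1 ^ 3 := pow_le_pow_left₀ (by norm_num) h3.le 3
  calc (16 : ℝ) ^ k ≤ Real.exp 3 ^ k := pow_le_pow_left₀ (by norm_num) h1 k
    _ = Real.exp (3 * k) := by
        rw [← Real.exp_nat_mul]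
        congr 1
        ring

private theorem Num_G {K κ ε0 : ℝ} (hK : 0 < K) (hκ : 0 < κ) (hε : 0 < ε0) (I : ℕ)
    (hI : 24000 ≤ I) :
    ∃ n0 : ℕ, ∀ n : ℕ, n0 ≤ n →
      NumG n K (Real.exp (-(n : ℝ) / 1000) / κ) ε0 (n / 12000) I
        (n + 1 + I * (2 + 2 * (n / 12000))) := by
  -- the asymptotic statements
  obtain ⟨n1, h1⟩ := Num_ev (1 / 24000) 0 (10 * 4 ^ I * Real.exp (1 / 2)) (by norm_num)
    (half_pos hε)
  obtain ⟨n2, h2⟩ := Num_ev (1 / 2) 0 2 (by norm_num) (half_pos hε)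
  obtain ⟨n3, h3⟩ := Num_ev (3 / 4000) (4 * (24 * K) / κ) ((4 * 2 + 3 / 2) * (24 * K) / κ)
    (by norm_num) (zero_lt_one' ℝ)
  have hc : 0 < κ / (24 * K) / 2000 := by positivity
  obtain ⟨n4, h4⟩ := Num_ev (κ / (24 * K) / 2000) (72 * (1 + 2 * I)) (72 * (2 + 2 * I)) hc
    (show (0 : ℝ) < 1 / 4 by norm_num)
  refine ⟨n1 + n2 + n3 + n4 + 12000, fun n hn => ?_⟩
  set k : ℕ := n / 12000 with hk
  have hk1 : n ≤ 12000 * k + 11999 := by omega
  have hk2 : 12000 * k ≤ n := by omega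
  have hk3 : 1 ≤ k := by omega
  have hk1' : (n : ℝ) ≤ 12000 * k + 11999 := by exact_mod_cast hk1
  have hk2' : 12000 * (k : ℝ) ≤ n := by exact_mod_cast hk2
  have hkI : n ≤ k * I := by
    have h5 : k * 24000 ≤ k * I := Nat.mul_le_mul_left _ hI
    omega
  set δ : ℝ := Real.exp (-(n : ℝ) / 1000) with hδ
  have hδ0 : 0 < δ := Real.exp_pos _
  have hn0 : (0 : ℝ) ≤ n := Nat.cast_nonneg n
  -- powers of `4`, `16`
  have h16 : (16 : ℝ) ^ k ≤ Real.exp (n / 4000) := by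
    refine (Num_sixteen_pow k).trans (Real.exp_le_exp.2 ?_)
    linarith
  have h416 : (4 : ℝ) ^ k * 4 ^ k = 16 ^ k := by
    rw [← mul_pow]
    norm_num
  have h4one : (1 : ℝ) ≤ 4 ^ k := one_le_pow₀ (by norm_num)
  have h4le : (4 : ℝ) ^ k ≤ 16 ^ k := by
    rw [← h416]
    exact le_mul_of_one_le_right (by positivity) h4one
  have hq : (1 / 4 : ℝ) ^ k = ((4 : ℝ) ^ k)⁻¹ := by
    rw [one_div, inv_pow]
  refine ⟨le_rfl, ?_, ?_, ?_⟩
  · -- g1
    have e1 : (1 / 2 : ℝ) ^ k ≤ Real.exp (1 / 2) * Real.exp (-(1 / 24000 * n)) := by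
      refine (Num_half_pow k).trans ?_
      rw [← Real.exp_add]
      apply Real.exp_le_exp.2
      linarith
    have e2 := h1 n (by omega)
    have e3 : 2 * (5 * 4 ^ I * (1 / 2 : ℝ) ^ k) ≤ ε0 / 2 := by
      refine le_trans ?_ e2
      have e4 : (10 * (4 : ℝ) ^ I) * (1 / 2 : ℝ) ^ k ≤
          (10 * (4 : ℝ) ^ I) * (Real.exp (1 / 2) * Real.exp (-(1 / 24000 * n))) :=
        mul_le_mul_of_nonneg_left e1 (by positivity)
      calc 2 * (5 * 4 ^ I * (1 / 2 : ℝ) ^ k) = (10 * (4 : ℝ) ^ I) * (1 / 2 : ℝ) ^ k := by ring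
        _ ≤ _ := e4
        _ = _ := by ring
    have e5 : (2 : ℝ) ^ n * (1 / 4 : ℝ) ^ (k * I) ≤ (1 / 2) ^ n := by
      have e6 : (1 / 4 : ℝ) ^ (k * I) ≤ (1 / 4) ^ n :=
        pow_le_pow_of_le_one (by norm_num) (by norm_num) hkI
      calc (2 : ℝ) ^ n * (1 / 4 : ℝ) ^ (k * I) ≤ 2 ^ n * (1 / 4) ^ n :=
            mul_le_mul_of_nonneg_left e6 (by positivity)
        _ = (1 / 2) ^ n := by
            rw [← mul_pow]
            norm_num
    have e7 := h2 n (by omega)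
    have e8 : (1 / 2 : ℝ) ^ n ≤ Real.exp (-(1 / 2 * n)) := by
      refine (Num_half_pow n).trans (le_of_eq ?_)
      congr 1
      ring
    have e9 : (0 * (n : ℝ) + 2) * Real.exp (-(1 / 2 * n)) = 2 * Real.exp (-(1 / 2 * n)) := by
      ring
    rw [e9] at e7
    linarith
  · -- g2
    have e1 : Real.log (4 * 2 ^ n) ≤ n + 2 := by
      rw [Real.log_mul (by norm_num) (by positivity), Real.log_pow]
      have e2 : Real.log 2 ≤ 1 := by
        have := Real.log_two_lt_d9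
        linarith
      have e3 : Real.log 4 ≤ 2 := by
        have e4 : (4 : ℝ) = 2 ^ 2 := by norm_num
        rw [e4, Real.log_pow]
        push_cast
        linarith
      have e5 : (n : ℝ) * Real.log 2 ≤ n * 1 := mul_le_mul_of_nonneg_left e2 hn0
      linarith
    have e2 := h3 n (by omega)
    have e3 : Real.exp (-(3 / 4000 * (n : ℝ))) = δ * Real.exp (n / 4000) := by
      rw [hδ, ← Real.exp_add]
      congr 1
      ring
    rw [e3] at e2
    -- multiply by `4^k * 24 K`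
    have e4 : (4 * (δ / κ) * Real.log (4 * 2 ^ n) * 4 ^ k + 3 * (δ / κ) / 2) *
        (4 ^ k * (24 * K)) ≤ 1 := by
      have hlog0 : 0 ≤ Real.log (4 * 2 ^ n) := by
        apply Real.log_nonneg
        have : (1 : ℝ) ≤ 2 ^ n := one_le_pow₀ (by norm_num)
        linarith
      have f1 : (4 * (δ / κ) * Real.log (4 * 2 ^ n) * 4 ^ k + 3 * (δ / κ) / 2) *
          (4 ^ k * (24 * K)) = (24 * K) * (δ / κ) * (4 * Real.log (4 * 2 ^ n) * 16 ^ k +
            3 / 2 * 4 ^ k) := by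
        rw [← h416]
        ring
      have f2 : 4 * Real.log (4 * 2 ^ n) * 16 ^ k + 3 / 2 * 4 ^ k ≤
          (4 * (n + 2) + 3 / 2) * Real.exp (n / 4000) := by
        have f3 : 4 * Real.log (4 * 2 ^ n) * 16 ^ k ≤ 4 * (n + 2) * Real.exp (n / 4000) :=
          mul_le_mul (by linarith) h16 (by positivity) (by positivity)
        have f4 : (3 / 2 : ℝ) * 4 ^ k ≤ 3 / 2 * Real.exp (n / 4000) :=
          mul_le_mul_of_nonneg_left (h4le.trans h16) (by norm_num)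
        calc _ ≤ 4 * (n + 2) * Real.exp (n / 4000) + 3 / 2 * Real.exp (n / 4000) :=
              add_le_add f3 f4
          _ = _ := by ring
      rw [f1]
      refine le_trans (mul_le_mul_of_nonneg_left f2 (by positivity)) ?_
      refine le_trans (le_of_eq ?_) e2
      ring
    rw [hq, ← le_div_iff₀ (by positivity)] at *
    refine e4.trans (le_of_eq ?_)
    rw [one_div, mul_inv, div_eq_mul_inv]
  · -- g3
    have e1 := h4 n (by omega)
    have e2 : κ / (24 * K) / 2000 * n ≤ (1 / 4 : ℝ) ^ k / (24 * K) / (δ / κ) := by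
      have f1 : (1 / 4 : ℝ) ^ k / (24 * K) / (δ / κ) =
          κ / (24 * K) * ((4 ^ k)⁻¹ * δ⁻¹) := by
        rw [hq]
        field_simp
      have f2 : Real.exp (-(n / 4000 : ℝ)) ≤ ((4 : ℝ) ^ k)⁻¹ := by
        rw [Real.exp_neg]
        exact inv_anti₀ (by positivity) (h4le.trans h16)
      have f3 : δ⁻¹ = Real.exp (n / 1000) := by
        rw [hδ, ← Real.exp_neg]
        congr 1
        ring
      have f4 : (n : ℝ) / 2000 ≤ ((4 : ℝ) ^ k)⁻¹ * δ⁻¹ := by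
        have f5 : Real.exp (-(n / 4000 : ℝ)) * Real.exp (n / 1000) ≤ ((4 : ℝ) ^ k)⁻¹ * δ⁻¹ := by
          rw [f3]
          exact mul_le_mul_of_nonneg_right f2 (Real.exp_pos _).le
        rw [← Real.exp_add] at f5
        refine le_trans ?_ f5
        have f6 := Real.add_one_le_exp (-(n / 4000 : ℝ) + n / 1000)
        linarith
      rw [f1]
      calc κ / (24 * K) / 2000 * n = κ / (24 * K) * (n / 2000) := by ring
        _ ≤ _ := mul_le_mul_of_nonneg_left f4 (by positivity)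
    have e3 : Real.exp (-((1 / 4 : ℝ) ^ k / (24 * K)) / (δ / κ)) ≤
        Real.exp (-(κ / (24 * K) / 2000 * n)) := by
      apply Real.exp_le_exp.2
      rw [neg_div]
      linarith
    refine le_trans ?_ e1
    refine mul_le_mul ?_ e3 (Real.exp_pos _).le (by positivity)
    push_cast
    have e4 : (k : ℝ) ≤ n := by
      have : (0 : ℝ) ≤ k := Nat.cast_nonneg k
      linarith
    have e5 : (I : ℝ) * k ≤ I * n := mul_le_mul_of_nonneg_left e4 (Nat.cast_nonneg I)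
    nlinarith

/-- `δ = exp (-n/1000)`, `k = ⌊n/12000⌋`, `I = 24000`, `i1 = n + 1 + I (2 + 2k)`.
`δ ≤ 2^(-16k)` since `16 log 2 / 12000 < 1/1000`, and `n ≤ 12000 (k+1) ≤ 24000 k`.
`g1`: `2^n 4^(-kI) ≤ 2^(-n)`.  `g2`: left side `≤ (2^(-16k)/κ) (3/2 + 4 log (4·2^n) 4^k)`,
`log (4·2^n) ≤ n + 2`; compare with `2^(-2k)/(24K)`.  `g3`: exponent `≤ -κ 2^(14k)/(24K)`,
prefactor linear in `k`. -/
theorem exists_numG {K κ ε0 : ℝ} (hK : 0 < K) (hκ : 0 < κ) (hε : 0 < ε0) :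
    ∃ n0 : ℕ, ∀ n : ℕ, n0 ≤ n → ∃ k I i1 : ℕ,
      NumG n K (Real.exp (-(n : ℝ) / 1000) / κ) ε0 k I i1 := by
  obtain ⟨I, hI⟩ : ∃ I : ℕ, 24000 ≤ I := ⟨24000, le_rfl⟩
  obtain ⟨n0, h⟩ := Num_G hK hκ hε I hI
  exact ⟨n0, fun n hn => ⟨_, _, _, h n hn⟩⟩

/-- `s1`: `exp (-n/1000) → 0`; `s2`: `(n+1) exp (-C exp (n/1000)) → 0`. -/
theorem exists_numS {K κ ε1 : ℝ} (hK : 0 < K) (hκ : 0 < κ) (hε : 0 < ε1) :
    ∃ n0 : ℕ, ∀ n : ℕ, n0 ≤ n →
      NumS n K (Real.exp (-(n : ℝ) / 1000) / κ) (Real.exp (-(n : ℝ) / 1000)) ε1 := by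
  have hc : 0 < ε1 ^ 2 / (24 * K) := by positivity
  obtain ⟨n1, h1⟩ := Num_ev (1 / 1000) 0 (3 / (2 * κ) + 2) (by norm_num) hc
  have hc' : 0 < ε1 ^ 2 / (24 * K) / 2000 := by positivity
  obtain ⟨n2, h2⟩ := Num_ev (ε1 ^ 2 / (24 * K) / 2000) 36 36 hc'
    (show (0 : ℝ) < 1 / 4 by norm_num)
  refine ⟨n1 + n2, fun n hn => ?_⟩
  have hδ : Real.exp (-(n : ℝ) / 1000) = Real.exp (-(1 / 1000 * n)) := by
    congr 1
    ring
  have hn0 : (0 : ℝ) ≤ n := Nat.cast_nonneg n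
  refine ⟨?_, ?_⟩
  · have e1 := h1 n (by omega)
    refine le_trans (le_of_eq ?_) e1
    rw [hδ]
    field_simp
    ring
  · have e1 := h2 n (by omega)
    refine le_trans ?_ e1
    have e2 : (36 : ℝ) * ((n : ℝ) + 1) = 36 * n + 36 := by ring
    rw [e2]
    refine mul_le_mul_of_nonneg_left (Real.exp_le_exp.2 ?_) (by positivity)
    have e3 : -(ε1 ^ 2 / (24 * K)) / (2 * Real.exp (-(n : ℝ) / 1000)) =
        -(ε1 ^ 2 / (24 * K) / 2 * Real.exp (n / 1000)) := by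
      have e4 : Real.exp (n / 1000 : ℝ) = (Real.exp (-(n : ℝ) / 1000))⁻¹ := by
        rw [← Real.exp_neg]
        congr 1
        ring
      rw [e4]
      field_simp
    rw [e3]
    have e5 := Real.add_one_le_exp (n / 1000 : ℝ)
    have e6 : ε1 ^ 2 / (24 * K) / 2 * (n / 1000) ≤
        ε1 ^ 2 / (24 * K) / 2 * Real.exp (n / 1000) :=
      mul_le_mul_of_nonneg_left (by linarith) (by positivity)
    have e7 : ε1 ^ 2 / (24 * K) / 2 * (n / 1000) = ε1 ^ 2 / (24 * K) / 2000 * n := by ring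
    linarith

/-- `lev = exp (-n/1000)/κ ≤ 1` for large `n` -/
theorem exists_lev_le {κ : ℝ} (hκ : 0 < κ) :
    ∃ n0 : ℕ, ∀ n : ℕ, n0 ≤ n → Real.exp (-(n : ℝ) / 1000) / κ ≤ 1 := by
  obtain ⟨n1, h1⟩ := Num_ev (1 / 1000) 0 1 (by norm_num) hκ
  refine ⟨n1, fun n hn => ?_⟩
  rw [div_le_one hκ]
  refine le_trans (le_of_eq ?_) (h1 n hn)
  rw [zero_mul, zero_add, one_mul]
  congr 1
  ring

end P047F.III
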