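import Vale.Agent.Lib.P047F.III.Dz

/-!
# P047F, Part III, module Shell: the shell property follows from a small family of tests
-/

open Finset

namespace P047F.III

variable {Q J : Type} [Fintype Q] [Fintype J] {d : ℕ}

/-- For `k ≤ n` let `M_k = 2^k/(2δ)`, `C_k` the centres of `hA.cov` at energy `2 M_k`
(`|C_k| ≤ exp (2 δ M_k)`), `u_c x = ev A c x - round (ev A c x)`.  Index type `ι`: pairs
`(k ≤ n, c ∈ C_k)` such that some `v : E d` has `|⟪l x,v⟫| ≤ 1/1000` for all `x` and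
`∑_Y (u_c x + ⟪l x,v⟫)² ≤ 3 M_k`; pick such `v_c`; tests `(φ_c = u_c + ⟪l ·,v_c⟫, ε1, M_k)`.
Weight `≤ ∑_{k ≤ n} exp (2δM_k) 36 exp ((-ε1²/(12K) + 3lev/2) M_k)
≤ 36 (n+1) exp (-(ε1²/(24K))/(2δ)) ≤ 1/4` (`s1`, `s2`, `M_k ≥ 1/(2δ)`).
Deterministic part: `En c ≤ 2 M_k`: `c = c0 + λ + w`, `|ev w| ≤ 1/1000`, `w = Φ v`;
`φ = u_{c0} + ⟪l ·, v⟫`, `|φ| ≤ 1/2 + 1/1000`, `∑_Y φ² ≤ ∑_Y dz² /0.99² ≤ 2M_k/0.98 ≤ 3M_k`
(`abs_le_dz`), so the index `(k, c0)` is present; `b = v - v_{c0}`: `φ = φ_{c0} + ⟪l ·, b⟫`,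
`‖b‖² = ∑_Y (φ - φ_{c0})² ≤ 2·3M_k + 2·3M_k`. -/
theorem hasFam_shell (A : Q → J → ℤ) {Y : Finset Q} {l : Q → E d} {s : Q → ℤ} {δ lev K ε1 : ℝ}
    (hA : Good A δ (1 / 1000)) (hδ : 0 < δ) (Φ : E d ≃ₗ[ℝ] (J → ℝ))
    (hΦ : ∀ g x, ev A (Φ g) x = inner ℝ (l x) g) (hF : Frame Y lev l) (hlev : 0 ≤ lev)
    (hK : 0 < K) (hε : 0 < ε1) {n : ℕ} (hnum : NumS n K lev δ ε1) :
    HasFam Y l s K lev (Shells A Y l s δ ε1 n) := by
  classical
  have hMpos : ∀ k : ℕ, (0 : ℝ) < 2 ^ k / (2 * δ) := fun k => by positivity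
  have hMge : ∀ k : ℕ, 1 / (2 * δ) ≤ (2 : ℝ) ^ k / (2 * δ) := fun k => by
    gcongr
    exact one_le_pow₀ (by norm_num)
  choose C hCcard hC using fun k : ℕ =>
    hA.cov (2 * (2 ^ k / (2 * δ))) (by have := hMpos k; positivity)
  let u : (J → ℝ) → Q → ℝ := fun c x => ev A c x - round (ev A c x)
  have hu : ∀ c x, |u c x| ≤ 1 / 2 := fun c x => abs_sub_round _
  let S : ℕ → (J → ℝ) → Prop := fun k c => ∃ v : E d, (∀ x, |(inner ℝ (l x) v : ℝ)| ≤ 1 / 1000) ∧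
    ∑ x ∈ Y, (u c x + inner ℝ (l x) v) ^ 2 ≤ 3 * (2 ^ k / (2 * δ))
  let T : ℕ → Finset (J → ℝ) := fun k => (C k).filter (S k)
  have hT : ∀ (k : ℕ) (c : {c // c ∈ T k}), S k c.1 := fun k c => (Finset.mem_filter.1 c.2).2
  choose v hv1 hv2 using hT
  have habs : ∀ (k : ℕ) (c : {c // c ∈ T k}) (x : Q),
      |u c.1 x + inner ℝ (l x) (v k c)| ≤ 501 / 1000 := by
    intro k c x
    calc |u c.1 x + inner ℝ (l x) (v k c)| ≤ |u c.1 x| + |(inner ℝ (l x) (v k c) : ℝ)| := abs_add_le _ _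
      _ ≤ 1 / 2 + 1 / 1000 := add_le_add (hu _ _) (hv1 k c x)
      _ = 501 / 1000 := by norm_num
  refine ⟨Σ k : Fin (n + 1), {c // c ∈ T k}, inferInstance,
    fun t x => u t.2.1 x + inner ℝ (l x) (v t.1 t.2), fun _ => ε1, fun t => 2 ^ (t.1 : ℕ) / (2 * δ),
    ?_, ?_, ?_⟩
  · rintro ⟨k, c⟩
    exact ⟨hε, hMpos _, fun x _ => (habs k c x).trans (by norm_num), hv2 k c⟩
  · -- weights
    rw [Fintype.sum_sigma]
    have hlevel : ∀ k : Fin (n + 1), ∑ _c : {c // c ∈ T k}, wt K lev ε1 (2 ^ (k : ℕ) / (2 * δ))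
        ≤ 36 * Real.exp (-(ε1 ^ 2 / (24 * K)) / (2 * δ)) := by
      intro k
      rw [Finset.sum_const, nsmul_eq_mul, Finset.card_univ, Fintype.card_coe]
      have h1 : ((T k).card : ℝ) ≤ Real.exp (δ * (2 * (2 ^ (k : ℕ) / (2 * δ)))) :=
        le_trans (by exact_mod_cast Finset.card_filter_le _ _) (hCcard k)
      have hw : 0 ≤ wt K lev ε1 (2 ^ (k : ℕ) / (2 * δ)) := by unfold wt; positivity
      calc ((T k).card : ℝ) * wt K lev ε1 (2 ^ (k : ℕ) / (2 * δ))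
          ≤ Real.exp (δ * (2 * (2 ^ (k : ℕ) / (2 * δ)))) * wt K lev ε1 (2 ^ (k : ℕ) / (2 * δ)) :=
            mul_le_mul_of_nonneg_right h1 hw
        _ = 36 * Real.exp ((2 * δ + (-(ε1 ^ 2 / (12 * K)) + 3 * lev / 2)) * (2 ^ (k : ℕ) / (2 * δ))) := by
            unfold wt
            rw [mul_left_comm, ← Real.exp_add]
            congr 2
            ring
        _ ≤ 36 * Real.exp (-(ε1 ^ 2 / (24 * K)) / (2 * δ)) := by
            refine mul_le_mul_of_nonneg_left (Real.exp_le_exp.2 ?_) (by norm_num)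
            have h2 := hnum.s1
            have h3 : ε1 ^ 2 / (12 * K) = 2 * (ε1 ^ 2 / (24 * K)) := by
              field_simp
              ring
            have h4 : 2 * δ + (-(ε1 ^ 2 / (12 * K)) + 3 * lev / 2) ≤ -(ε1 ^ 2 / (24 * K)) := by
              rw [h3]
              linarith
            have h5 : 0 < ε1 ^ 2 / (24 * K) := by positivity
            calc (2 * δ + (-(ε1 ^ 2 / (12 * K)) + 3 * lev / 2)) * (2 ^ (k : ℕ) / (2 * δ))
                ≤ -(ε1 ^ 2 / (24 * K)) * (2 ^ (k : ℕ) / (2 * δ)) :=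
                  mul_le_mul_of_nonneg_right h4 (hMpos k).le
              _ ≤ -(ε1 ^ 2 / (24 * K)) * (1 / (2 * δ)) :=
                  mul_le_mul_of_nonpos_left (hMge k) (by linarith)
              _ = -(ε1 ^ 2 / (24 * K)) / (2 * δ) := by ring
    calc ∑ k : Fin (n + 1), ∑ _c : {c // c ∈ T k}, wt K lev ε1 (2 ^ (k : ℕ) / (2 * δ))
        ≤ ∑ _k : Fin (n + 1), 36 * Real.exp (-(ε1 ^ 2 / (24 * K)) / (2 * δ)) :=
          Finset.sum_le_sum fun k _ => hlevel k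
      _ = 36 * ((n : ℝ) + 1) * Real.exp (-(ε1 ^ 2 / (24 * K)) / (2 * δ)) := by
          rw [Finset.sum_const, nsmul_eq_mul, Finset.card_univ, Fintype.card_fin]
          push_cast
          ring
      _ ≤ 1 / 4 := hnum.s2
  · -- deterministic part
    intro z _ hOk k hk c hc
    obtain ⟨c0, hc0, m, hm⟩ := hC k c hc
    set w : J → ℝ := fun j => c j - c0 j - (m j : ℝ) with hw
    set v0 : E d := Φ.symm w with hv0
    have hvx : ∀ x, (inner ℝ (l x) v0 : ℝ) = ev A w x := fun x => by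
      rw [← hΦ, hv0, LinearEquiv.apply_symm_apply]
    have hev : ∀ x, ev A c x = ev A c0 x + ev A w x + ((∑ j, A x j * m j : ℤ) : ℝ) := by
      intro x
      simp only [ev, hw]
      push_cast
      rw [← Finset.sum_add_distrib, ← Finset.sum_add_distrib]
      refine Finset.sum_congr rfl fun j _ => ?_
      ring
    have hφint : ∀ x, ev A c x
        = (u c0 x + inner ℝ (l x) v0) + ((round (ev A c0 x) + ∑ j, A x j * m j : ℤ) : ℝ) := by
      intro x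
      rw [hev x, hvx x]
      simp only [u]
      push_cast
      ring
    have hφabs : ∀ x, |u c0 x + inner ℝ (l x) v0| ≤ 501 / 1000 := by
      intro x
      calc |u c0 x + inner ℝ (l x) v0| ≤ |u c0 x| + |(inner ℝ (l x) v0 : ℝ)| := abs_add_le _ _
        _ ≤ 1 / 2 + 1 / 1000 := add_le_add (hu _ _) (by rw [hvx]; exact hm x)
        _ = 501 / 1000 := by norm_num
    have hφen : ∑ x ∈ Y, (u c0 x + inner ℝ (l x) v0) ^ 2 ≤ 3 * (2 ^ k / (2 * δ)) := by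
      have h1 : ∀ x, (u c0 x + inner ℝ (l x) v0) ^ 2 ≤ (3 / 2) * dz (ev A c x) ^ 2 := by
        intro x
        obtain ⟨h2, -⟩ := abs_le_dz (hφint x) (hφabs x)
        have h3 : 0 ≤ |u c0 x + inner ℝ (l x) v0| := abs_nonneg _
        have h4 : (99 / 100 * |u c0 x + inner ℝ (l x) v0|) ^ 2 ≤ dz (ev A c x) ^ 2 :=
          pow_le_pow_left₀ (by positivity) h2 2
        rw [mul_pow, sq_abs] at h4
        nlinarith [sq_nonneg (u c0 x + inner ℝ (l x) v0)]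
      calc ∑ x ∈ Y, (u c0 x + inner ℝ (l x) v0) ^ 2
          ≤ ∑ x ∈ Y, (3 / 2) * dz (ev A c x) ^ 2 := Finset.sum_le_sum fun x _ => h1 x
        _ ≤ ∑ x, (3 / 2) * dz (ev A c x) ^ 2 :=
            Finset.sum_le_sum_of_subset_of_nonneg (Finset.subset_univ _) fun x _ _ => by positivity
        _ = (3 / 2) * En A univ c := by rw [← Finset.mul_sum]; rfl
        _ ≤ (3 / 2) * (2 * (2 ^ k / (2 * δ))) := by linarith
        _ = 3 * (2 ^ k / (2 * δ)) := by ring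
    have hmem : c0 ∈ T k := by
      refine Finset.mem_filter.2 ⟨hc0, v0, fun x => ?_, hφen⟩
      rw [hvx]
      exact hm x
    have hOk' := hOk ⟨⟨k, Nat.lt_succ_of_le hk⟩, ⟨c0, hmem⟩⟩
    refine ⟨fun x => u c0 x + inner ℝ (l x) v0, fun x => u c0 x + inner ℝ (l x) (v k ⟨c0, hmem⟩),
      v0 - v k ⟨c0, hmem⟩, fun x => ⟨_, hφint x⟩, hφabs, fun x => ?_, ?_, hOk'⟩
    · rw [inner_sub_right]
      ring
    · rw [← hF.pars]
      have h1 : ∀ x, (inner ℝ (l x) (v0 - v k ⟨c0, hmem⟩) : ℝ) ^ 2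
          ≤ 2 * (u c0 x + inner ℝ (l x) v0) ^ 2
            + 2 * (u c0 x + inner ℝ (l x) (v k ⟨c0, hmem⟩)) ^ 2 := by
        intro x
        rw [inner_sub_right]
        nlinarith [sq_nonneg ((u c0 x + inner ℝ (l x) v0)
          + (u c0 x + inner ℝ (l x) (v k ⟨c0, hmem⟩)))]
      calc ∑ x ∈ Y, (inner ℝ (l x) (v0 - v k ⟨c0, hmem⟩) : ℝ) ^ 2
          ≤ ∑ x ∈ Y, (2 * (u c0 x + inner ℝ (l x) v0) ^ 2
            + 2 * (u c0 x + inner ℝ (l x) (v k ⟨c0, hmem⟩)) ^ 2) :=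
            Finset.sum_le_sum fun x _ => h1 x
        _ = 2 * ∑ x ∈ Y, (u c0 x + inner ℝ (l x) v0) ^ 2
            + 2 * ∑ x ∈ Y, (u c0 x + inner ℝ (l x) (v k ⟨c0, hmem⟩)) ^ 2 := by
            rw [Finset.sum_add_distrib, ← Finset.mul_sum, ← Finset.mul_sum]
        _ ≤ 12 * (2 ^ k / (2 * δ)) := by
            have h2 := hv2 k ⟨c0, hmem⟩
            linarith

end P047F.III
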