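import Vale.Agent.Lib.P047F.III.Frame
import Vale.Agent.Lib.P047F.III.Fam
import Vale.Agent.Lib.P047F.III.GramB
import Vale.Agent.Lib.P047F.III.Num
import Vale.Agent.Lib.P047F.III.Shell
import Vale.Agent.Lib.P047F.III.Concl

/-!
# P047F, Part III: assembly
-/

open Finset

namespace P047F.III

variable {Q J : Type} [Fintype Q] [Fintype J] {d : ℕ}

theorem gram_neg {Y : Finset Q} {l : Q → E d} {s z : Q → ℤ} {ε0 : ℝ} (h : Gram Y l s ε0 z) :
    Gram Y l (fun x => - s x) ε0 z := by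
  intro e
  have h1 := h e
  have h2 : ∑ x ∈ Y, (((fun x => - s x) x * z x : ℤ) : ℝ) * (inner ℝ (l x) e : ℝ) ^ 2
      = - ∑ x ∈ Y, ((s x * z x : ℤ) : ℝ) * (inner ℝ (l x) e : ℝ) ^ 2 := by
    rw [← Finset.sum_neg_distrib]
    refine Finset.sum_congr rfl fun x _ => ?_
    push_cast
    ring
  rw [h2, abs_neg]
  exact h1

theorem ok_neg {Y : Finset Q} {l : Q → E d} {s z : Q → ℤ} {φ : Q → ℝ} {ε M : ℝ}
    (h : Ok Y l s z φ ε M) : Ok Y l (fun x => - s x) z φ ε M := by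
  obtain ⟨h1, h2⟩ := h
  constructor
  · have h3 : ∑ x ∈ Y, (((fun x => - s x) x * z x : ℤ) : ℝ) * φ x ^ 2
        = - ∑ x ∈ Y, ((s x * z x : ℤ) : ℝ) * φ x ^ 2 := by
      rw [← Finset.sum_neg_distrib]
      refine Finset.sum_congr rfl fun x _ => ?_
      push_cast
      ring
    rw [h3, abs_neg]
    exact h1
  · have h3 : ∑ x ∈ Y, ((((fun x => - s x) x * z x : ℤ) : ℝ) * φ x) • l x
        = - ∑ x ∈ Y, (((s x * z x : ℤ) : ℝ) * φ x) • l x := by
      rw [← Finset.sum_neg_distrib]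
      refine Finset.sum_congr rfl fun x _ => ?_
      rw [← neg_smul]
      congr 1
      push_cast
      ring
    rw [h3, norm_neg]
    exact h2

theorem shells_neg {A : Q → J → ℤ} {Y : Finset Q} {l : Q → E d} {s z : Q → ℤ} {δ ε1 : ℝ} {n : ℕ}
    (h : Shells A Y l s δ ε1 n z) : Shells A Y l (fun x => - s x) δ ε1 n z := by
  intro k hk c hc
  obtain ⟨φ, φ0, b, h1, h2, h3, h4, h5⟩ := h k hk c hc
  exact ⟨φ, φ0, b, h1, h2, h3, h4, ok_neg h5⟩

end P047F.III

namespace P047F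

open P047F.III

/-- **Part III** from the sub-Gaussian output of Part II -/
theorem partIII (hII : PartIIb) : PartIII := by
  intro κ hκ hκ1
  obtain ⟨n1, hn1⟩ := hII κ hκ hκ1
  set K : ℝ := Real.exp 8 + 1 with hKdef
  have hK : 0 < K := by positivity
  have hε : 0 < κ / 1000 := by positivity
  obtain ⟨n2, hn2⟩ := exists_numG (K := K) hK hκ hε
  obtain ⟨n3, hn3⟩ := exists_numS (K := K) hK hκ hε
  obtain ⟨n4, hn4⟩ := exists_lev_le hκ
  refine ⟨max (max n1 n2) (max n3 n4), fun n hn Q J _ _ A hcard hA Y hY hpar s hs => ?_⟩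
  have hn1' : n1 ≤ n := le_trans (le_trans (le_max_left _ _) (le_max_left _ _)) hn
  have hn2' : n2 ≤ n := le_trans (le_trans (le_max_right _ _) (le_max_left _ _)) hn
  have hn3' : n3 ≤ n := le_trans (le_trans (le_max_left _ _) (le_max_right _ _)) hn
  have hn4' : n4 ≤ n := le_trans (le_trans (le_max_right _ _) (le_max_right _ _)) hn
  obtain ⟨V, hVne, hV, hSG⟩ := hn1 n hn1' Q J A hcard hA Y hY hpar
  obtain ⟨k, I, i1, hnumG⟩ := hn2 n hn2'
  have hnumS := hn3 n hn3'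
  have hlev1 := hn4 n hn4'
  have hδ : 0 < Real.exp (-(n : ℝ) / 1000) := Real.exp_pos _
  have hδ1 : Real.exp (-(n : ℝ) / 1000) ≤ 1 := by
    rw [Real.exp_le_one_iff]
    have : (0 : ℝ) ≤ n := Nat.cast_nonneg n
    linarith
  have hlev : 0 < Real.exp (-(n : ℝ) / 1000) / κ := div_pos hδ hκ
  obtain ⟨d, l, Φ, hΦ, hF⟩ := frame_of_nice A hA hδ hκ hY
  have hV' : SG Y K V := by
    refine ⟨hVne, fun z hz => (hV z hz).1, fun h => ?_⟩
    have h1 := hSG h
    refine le_trans (le_of_eq ?_) h1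
    refine Finset.sum_congr rfl fun z hz => ?_
    congr 1
    refine Finset.sum_subset (Finset.subset_univ _) fun x _ hx => ?_
    rw [(hV z hz).2.1 x hx]
    simp
  obtain ⟨z, hzV, hG, hS⟩ := exists_of_fam hF hlev.le hV' hK hs
    (hasFam_gram hF hlev hlev1 hK hs hcard hnumG)
    (hasFam_shell A hA hδ Φ hΦ hF hlev.le hK hε hnumS)
  obtain ⟨hz1, hz2, hz3⟩ := hV z hzV
  refine ⟨z, hz1, hz2, hz3, fun Y' hY' => ?_, fun Y' hY' => ?_⟩
  · exact nice_of A hκ hκ1 hY hA hδ hδ1 hF Φ hΦ hs hz1 hcard hG hS Y' hY'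
  · have hs' : ∀ x, (fun x => - s x) x = 1 ∨ (fun x => - s x) x = -1 := by
      intro x
      rcases hs x with h | h
      · right
        simp [h]
      · left
        simp [h]
    exact nice_of A hκ hκ1 hY hA hδ hδ1 hF Φ hΦ hs' hz1 hcard (gram_neg hG) (shells_neg hS) Y' hY'

end P047F
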