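import Vale.Agent.Lib.P047F.III.Dz

/-!
# P047F, Part III, module ConclA: small energies
-/

open Finset

namespace P047F.III

variable {Q J : Type} [Fintype Q] [Fintype J] {d : ℕ}

private theorem conclA_sub (A : Q → J → ℤ) (a b : J → ℝ) (x : Q) :
    ev A (fun j => a j - b j) x = ev A a x - ev A b x := by
  unfold ev
  rw [← Finset.sum_sub_distrib]
  exact Finset.sum_congr rfl fun j _ => by ring

private theorem conclA_int (A : Q → J → ℤ) (k : J → ℤ) (x : Q) :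
    ev A (fun j => (k j : ℝ)) x = ((∑ j, A x j * k j : ℤ) : ℝ) := by
  unfold ev
  push_cast
  rfl

private theorem conclA_zero (A : Q → J → ℤ) : En A univ (fun _ => (0 : ℝ)) = 0 := by
  unfold En ev
  refine Finset.sum_eq_zero fun x _ => ?_
  simp [dz]

/-- small energies: at `M = 1/(2δ)` the cover has `exp (1/2) < 2` centres, and `0` is covered, so
`c = λ + Φ v` with `|⟪l x, v⟫| ≤ 2/1000`. -/
theorem small_energy (A : Q → J → ℤ) {δ : ℝ} (hA : Good A δ (1 / 1000)) (hδ : 0 < δ) {l : Q → E d}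
    (Φ : E d ≃ₗ[ℝ] (J → ℝ)) (hΦ : ∀ g x, ev A (Φ g) x = inner ℝ (l x) g) {c : J → ℝ}
    (hc : En A univ c ≤ 1 / (2 * δ)) :
    ∃ v : E d, (∀ x, ∃ m : ℤ, ev A c x = inner ℝ (l x) v + m) ∧
      ∀ x, |(inner ℝ (l x) v : ℝ)| ≤ 2 / 1000 := by
  have hM : (0 : ℝ) ≤ 1 / (2 * δ) := by positivity
  obtain ⟨C, hCc, hC⟩ := hA.cov (1 / (2 * δ)) hM
  have hC1 : C.card ≤ 1 := by
    have h1 : δ * (1 / (2 * δ)) = 1 / 2 := by
      field_simp
    rw [h1] at hCc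
    have h2 : Real.exp (1 / 2) < 2 := by
      have h3 : Real.exp (1 / 2) ^ 2 = Real.exp 1 := by
        rw [← Real.exp_nat_mul]
        norm_num
      have h4 := Real.exp_one_lt_d9
      have h5 := Real.exp_pos (1 / 2)
      nlinarith
    have h3 : (C.card : ℝ) < 2 := lt_of_le_of_lt hCc h2
    have h4 : C.card < 2 := by exact_mod_cast h3
    omega
  obtain ⟨c0, hc0, k, hk⟩ := hC c hc
  obtain ⟨c0', hc0', k', hk'⟩ := hC (fun _ => 0) (by rw [conclA_zero]; exact hM)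
  have he : c0' = c0 := Finset.card_le_one.1 hC1 c0' hc0' c0 hc0
  subst he
  set u : J → ℝ := fun j => c j - ((k j - k' j : ℤ) : ℝ) with hu
  have hΦu : ∀ x, (inner ℝ (l x) (Φ.symm u) : ℝ) = ev A u x := by
    intro x
    rw [← hΦ, LinearEquiv.apply_symm_apply]
  have hev : ∀ x, ev A u x = ev A (fun j => c j - c0' j - (k j : ℝ)) x -
      ev A (fun j => 0 - c0' j - (k' j : ℝ)) x := by
    intro x
    rw [← conclA_sub]
    congr 1
    funext j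
    simp only [hu]
    push_cast
    ring
  refine ⟨Φ.symm u, fun x => ⟨∑ j, A x j * (k j - k' j), ?_⟩, fun x => ?_⟩
  · rw [hΦu, hu, conclA_sub A c (fun j => ((k j - k' j : ℤ) : ℝ)) x,
      conclA_int A (fun j => k j - k' j) x]
    ring
  · rw [hΦu, hev]
    have h1 := hk x
    have h2 := hk' x
    refine (abs_sub _ _).trans ?_
    linarith

/-- for small energies: `dz (ev A c x) = |⟪l x,v⟫|`,
`∑_{z = s} ⟪l x,v⟫² = (‖v‖² + ∑_Y ζ ⟪l x,v⟫²)/2 ≥ (1 - κ/1000)/2 ‖v‖²`, `‖v‖² = E_Y(c) ≥ κ E(c)`. -/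
theorem nice_small (A : Q → J → ℤ) {Y : Finset Q} {κ δ lev : ℝ} (hκ : 0 < κ) (hκ1 : κ ≤ 1)
    (hY : Nice A Y κ) (hA : Good A δ (1 / 1000)) (hδ : 0 < δ) {l : Q → E d} (hF : Frame Y lev l)
    (Φ : E d ≃ₗ[ℝ] (J → ℝ)) (hΦ : ∀ g x, ev A (Φ g) x = inner ℝ (l x) g) {s z : Q → ℤ}
    (hs : ∀ x, s x = 1 ∨ s x = -1) (hz : ∀ x ∈ Y, z x = 1 ∨ z x = -1)
    (hG : Gram Y l s (κ / 1000) z) {c : J → ℝ} (hc : En A univ c ≤ 1 / (2 * δ)) :
    κ / 5 * En A univ c ≤ ∑ x ∈ Y.filter (fun x => z x = s x), dz (ev A c x) ^ 2 := by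
  obtain ⟨v, hv1, hv2⟩ := small_energy A hA hδ Φ hΦ hc
  have hdz : ∀ x, dz (ev A c x) ^ 2 = (inner ℝ (l x) v : ℝ) ^ 2 := by
    intro x
    obtain ⟨m, hm⟩ := hv1 x
    rw [dz_eq_abs hm ((hv2 x).trans (by norm_num)), sq_abs]
  have hE : En A Y c = ‖v‖ ^ 2 := by
    unfold En
    rw [Finset.sum_congr rfl fun x _ => hdz x]
    exact hF.pars v
  have h0 : 0 ≤ En A univ c := Finset.sum_nonneg fun x _ => sq_nonneg _
  have h1 := hY c
  rw [hE] at h1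
  rw [sum_filter_eq hs hz (fun x => dz (ev A c x) ^ 2)]
  rw [Finset.sum_congr rfl fun x (_ : x ∈ Y) => hdz x]
  have h2 : ∑ x ∈ Y, ((s x * z x : ℤ) : ℝ) * dz (ev A c x) ^ 2 =
      ∑ x ∈ Y, ((s x * z x : ℤ) : ℝ) * (inner ℝ (l x) v : ℝ) ^ 2 :=
    Finset.sum_congr rfl fun x _ => by rw [hdz x]
  rw [h2, hF.pars v]
  have h3 := (abs_le.1 (hG v)).1
  have h4 : κ / 1000 * ‖v‖ ^ 2 ≤ 1 / 1000 * ‖v‖ ^ 2 :=
    mul_le_mul_of_nonneg_right (by linarith) (sq_nonneg _)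
  nlinarith [mul_nonneg hκ.le h0]

end P047F.III
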