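import Vale.Agent.Lib.P047F.Interface

/-!
# P047F, Part III (nice colourings): definitions

Everything of `PROOF.md`, Part III, is carried out in a *frame*: vectors `l x` of a Euclidean space
`E d` with `∑_{x ∈ Y} ⟪l x, g⟫² = ‖g‖²` and `‖l x‖² ≤ lev` (module `Frame`: `E d ≃ (J → ℝ)` with
`ev A (Φ g) x = ⟪l x, g⟫`).
-/

open Finset

namespace P047F

/-- Output of Part II used here: `V` = all balanced signings of `Y`, sub-Gaussian. -/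
def PartIIb : Prop :=
  ∀ κ : ℝ, 0 < κ → κ ≤ 1 → ∃ n0 : ℕ, ∀ n : ℕ, n0 ≤ n →
    ∀ (Q J : Type) [Fintype Q] [Fintype J] (A : Q → J → ℤ),
    Fintype.card Q = 2 ^ n → Good A (Real.exp (-(n : ℝ) / 1000)) (1 / 1000) →
    ∀ Y : Finset Q, Nice A Y κ → (∀ j, Even (∑ x ∈ Y, A x j)) →
    ∃ V : Finset (Q → ℤ), V.Nonempty ∧
      (∀ z ∈ V, (∀ x ∈ Y, z x = 1 ∨ z x = -1) ∧ (∀ x, x ∉ Y → z x = 0) ∧
        ∀ j, ∑ x, z x * A x j = 0) ∧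
      ∀ h : Q → ℝ, ∑ z ∈ V, Real.exp (∑ x, (z x : ℝ) * h x)
        ≤ 12 * Real.exp ((Real.exp 8 + 1) * ∑ x ∈ Y, h x ^ 2) * V.card

namespace III

/-- the Euclidean space of the frame -/
abbrev E (d : ℕ) : Type := EuclideanSpace ℝ (Fin d)

variable {Q : Type} {d : ℕ}

/-- Parseval frame on `Y` with leverage at most `lev` on all of `Q` -/
structure Frame (Y : Finset Q) (lev : ℝ) (l : Q → E d) : Prop where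
  pars : ∀ g : E d, ∑ x ∈ Y, (inner ℝ (l x) g : ℝ) ^ 2 = ‖g‖ ^ 2
  lev_le : ∀ x, ‖l x‖ ^ 2 ≤ lev

/-- sub-Gaussian nonempty family of signings of `Y` -/
structure SG (Y : Finset Q) (K : ℝ) (V : Finset (Q → ℤ)) : Prop where
  ne : V.Nonempty
  sgn : ∀ z ∈ V, ∀ x ∈ Y, z x = 1 ∨ z x = -1
  sg : ∀ h : Q → ℝ, ∑ z ∈ V, Real.exp (∑ x ∈ Y, (z x : ℝ) * h x)
        ≤ 12 * Real.exp (K * ∑ x ∈ Y, h x ^ 2) * V.card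

/-- `z` passes the test `(φ, ε, M)` (with respect to the signs `s`) -/
def Ok (Y : Finset Q) (l : Q → E d) (s z : Q → ℤ) (φ : Q → ℝ) (ε M : ℝ) : Prop :=
  |∑ x ∈ Y, ((s x * z x : ℤ) : ℝ) * φ x ^ 2| ≤ ε * M ∧
  ‖∑ x ∈ Y, (((s x * z x : ℤ) : ℝ) * φ x) • l x‖ ^ 2 ≤ ε ^ 2 * M

/-- admissible tests -/
structure Valid (Y : Finset Q) (φ : Q → ℝ) (ε M : ℝ) : Prop where
  eps : 0 < ε
  pos : 0 < M
  bd : ∀ x ∈ Y, |φ x| ≤ 1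
  en : ∑ x ∈ Y, φ x ^ 2 ≤ 3 * M

/-- bound for the probability that a test fails -/
noncomputable def wt (K lev ε M : ℝ) : ℝ :=
  36 * Real.exp ((-(ε ^ 2 / (12 * K)) + 3 * lev / 2) * M)

/-- the property `P` of signings follows from a finite family of tests of total failure probability
at most `1/4` -/
def HasFam (Y : Finset Q) (l : Q → E d) (s : Q → ℤ) (K lev : ℝ) (P : (Q → ℤ) → Prop) : Prop :=
  ∃ (ι : Type) (_ : Fintype ι) (φ : ι → Q → ℝ) (ε M : ι → ℝ),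
    (∀ t, Valid Y (φ t) (ε t) (M t)) ∧ (∑ t, wt K lev (ε t) (M t) ≤ 1 / 4) ∧
    ∀ z : Q → ℤ, (∀ x ∈ Y, z x = 1 ∨ z x = -1) →
      (∀ t, Ok Y l s z (φ t) (ε t) (M t)) → P z

/-- the ball `𝓑_M` -/
def Ball (l : Q → E d) (M : ℝ) : Set (E d) :=
  {e | ‖e‖ ^ 2 ≤ M ∧ ∀ x, |(inner ℝ (l x) e : ℝ)| ≤ 1}

/-- `N` is an `η`-net (sup distance) of `𝓑_M`, contained in it -/
def IsNet (l : Q → E d) (M η : ℝ) (N : Finset (E d)) : Prop :=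
  (∀ b ∈ N, b ∈ Ball l M) ∧
  ∀ e ∈ Ball l M, ∃ b ∈ N, ∀ x, |(inner ℝ (l x) (e - b) : ℝ)| ≤ η

/-- the Gram property: `|∑_Y ζ ⟪l x, e⟫²| ≤ ε0 ‖e‖²` -/
def Gram (Y : Finset Q) (l : Q → E d) (s : Q → ℤ) (ε0 : ℝ) (z : Q → ℤ) : Prop :=
  ∀ e : E d, |∑ x ∈ Y, ((s x * z x : ℤ) : ℝ) * (inner ℝ (l x) e : ℝ) ^ 2| ≤ ε0 * ‖e‖ ^ 2

/-- the shell property (levels `M_k = 2^k/(2δ)`, `k ≤ n`) -/
def Shells {J : Type} [Fintype Q] [Fintype J] (A : Q → J → ℤ) (Y : Finset Q) (l : Q → E d)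
    (s : Q → ℤ) (δ ε1 : ℝ) (n : ℕ) (z : Q → ℤ) : Prop :=
  ∀ k ≤ n, ∀ c : J → ℝ, En A univ c ≤ 2 * (2 ^ k / (2 * δ)) →
    ∃ (φ φ0 : Q → ℝ) (b : E d), (∀ x, ∃ m : ℤ, ev A c x = φ x + m) ∧
      (∀ x, |φ x| ≤ 501 / 1000) ∧ (∀ x, φ x = φ0 x + inner ℝ (l x) b) ∧
      ‖b‖ ^ 2 ≤ 12 * (2 ^ k / (2 * δ)) ∧ Ok Y l s z φ0 ε1 (2 ^ k / (2 * δ))

/-- numerical conditions for the Gram event -/
structure NumG (n : ℕ) (K lev ε0 : ℝ) (k I i1 : ℕ) : Prop where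
  top : n + 1 + I * (2 + 2 * k) ≤ i1
  g1 : 2 * (5 * 4 ^ I * (1 / 2 : ℝ) ^ k + 2 ^ n * (1 / 4 : ℝ) ^ (k * I)) ≤ ε0
  g2 : 4 * lev * Real.log (4 * 2 ^ n) * 4 ^ k + 3 * lev / 2 ≤ (1 / 4 : ℝ) ^ k / (24 * K)
  g3 : 72 * ((i1 : ℝ) + 1) * Real.exp (-((1 / 4 : ℝ) ^ k / (24 * K)) / lev) ≤ 1 / 4

/-- numerical conditions for the shell events -/
structure NumS (n : ℕ) (K lev δ ε1 : ℝ) : Prop where
  s1 : 3 * lev / 2 + 2 * δ ≤ ε1 ^ 2 / (24 * K)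
  s2 : 36 * ((n : ℝ) + 1) * Real.exp (-(ε1 ^ 2 / (24 * K)) / (2 * δ)) ≤ 1 / 4

end III

end P047F
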