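import Vale.Agent.Lib.P047F.III.Defs

/-!
# P047F, Part III, module Dz: distance to the nearest integer, splitting by sign
-/

open Finset

namespace P047F.III

variable {Q : Type}

private theorem Dz_key {t φ : ℝ} {m : ℤ} (h : t = φ + m) :
    dz t ≤ |φ| ∧ (dz t = |φ| ∨ 1 - |φ| ≤ dz t) := by
  have e : dz t = |φ - round φ| := by
    unfold dz
    rw [h, round_add_intCast]
    push_cast
    congr 1
    ring
  rw [e]
  refine ⟨?_, ?_⟩
  · have h1 := round_le φ 0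
    rwa [Int.cast_zero, sub_zero] at h1
  · by_cases hn : round φ = 0
    · left
      rw [hn, Int.cast_zero, sub_zero]
    · right
      have h1 : (1 : ℝ) ≤ |(round φ : ℝ)| := by
        have h2 : 1 ≤ |round φ| := Int.one_le_abs hn
        exact_mod_cast h2
      have h3 : |(round φ : ℝ)| ≤ |φ - round φ| + |φ| := by
        have h4 := abs_sub_abs_le_abs_sub (round φ : ℝ) φ
        rw [abs_sub_comm] at h4
        linarith
      linarith

/-- if `|φ| ≤ 1/2 + 1/1000` and `t - φ ∈ ℤ` then `|φ| ≤ dz t / 0.99` and `dz t ≤ |φ|` -/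
theorem abs_le_dz {t φ : ℝ} {m : ℤ} (h : t = φ + m) (hφ : |φ| ≤ 501 / 1000) :
    99 / 100 * |φ| ≤ dz t ∧ dz t ≤ |φ| := by
  obtain ⟨h1, h2⟩ := Dz_key h
  refine ⟨?_, h1⟩
  have h0 := abs_nonneg φ
  rcases h2 with h2 | h2
  · rw [h2]
    linarith
  · linarith

/-- exact for `|φ| ≤ 1/2` -/
theorem dz_eq_abs {t φ : ℝ} {m : ℤ} (h : t = φ + m) (hφ : |φ| ≤ 1 / 2) : dz t = |φ| := by
  obtain ⟨h1, h2⟩ := Dz_key h
  rcases h2 with h2 | h2
  · exact h2
  · exact le_antisymm h1 (by linarith)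

/-- `dz ≤ 1/2` -/
theorem dz_le_half (t : ℝ) : dz t ≤ 1 / 2 := abs_sub_round t

/-- `ζ = s z` is `1` where `z = s` and `-1` elsewhere on `Y` -/
theorem sum_filter_eq {Y : Finset Q} {s z : Q → ℤ} (hs : ∀ x, s x = 1 ∨ s x = -1)
    (hz : ∀ x ∈ Y, z x = 1 ∨ z x = -1) (F : Q → ℝ) :
    ∑ x ∈ Y.filter (fun x => z x = s x), F x
      = (∑ x ∈ Y, F x + ∑ x ∈ Y, ((s x * z x : ℤ) : ℝ) * F x) / 2 := by
  rw [Finset.sum_filter, ← Finset.sum_add_distrib, Finset.sum_div]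
  refine Finset.sum_congr rfl fun x hx => ?_
  rcases hs x with h1 | h1 <;> rcases hz x hx with h2 | h2 <;> rw [h1, h2] <;> norm_num

end P047F.III
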