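import Vale.Agent.Lib.P047F.III.Defs

/-!
# P047F, Part III, module Frame: leverage from niceness, existence of the frame
-/

open Finset

namespace P047F.III

variable {Q J : Type} [Fintype Q] [Fintype J]

omit [Fintype Q] in
private theorem frame_ev_smul (A : Q → J → ℤ) (c : J → ℝ) (t : ℝ) (x : Q) :
    ev A (fun j => t * c j) x = t * ev A c x := by
  unfold ev
  rw [Finset.mul_sum]
  exact Finset.sum_congr rfl fun j _ => by ring

private theorem frame_dz {t : ℝ} (h : |t| < 1 / 2) : dz t ^ 2 = t ^ 2 := by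
  have h1 := abs_lt.1 h
  have h2 : round t = 0 := by
    rw [round_eq_zero_iff]
    constructor <;> linarith [h1.1, h1.2]
  unfold dz
  rw [h2, Int.cast_zero, sub_zero, sq_abs]

/-- Scaling `c → 0` in `Nice`: choose `t > 0` with `|t * ev A c x| < 1/2` for all `x`; then
`dz (ev A (t • c) x) = |t * ev A c x|` (`ev` is linear in `c`), so `κ t² ∑_Q ev² ≤ t² ∑_Y ev²`. -/
theorem nice_sq (A : Q → J → ℤ) {κ : ℝ} {Y : Finset Q} (hY : Nice A Y κ) (c : J → ℝ) :
    κ * ∑ x, ev A c x ^ 2 ≤ ∑ x ∈ Y, ev A c x ^ 2 := by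
  set B : ℝ := 1 + ∑ x, |ev A c x| with hB
  have hS : 0 ≤ ∑ x, |ev A c x| := Finset.sum_nonneg fun x _ => abs_nonneg _
  have hB0 : 0 < B := by linarith
  set t : ℝ := 1 / (2 * B) with ht
  have ht0 : 0 < t := by positivity
  have hsm : ∀ x, |t * ev A c x| < 1 / 2 := by
    intro x
    have h1 : |ev A c x| ≤ ∑ x, |ev A c x| :=
      Finset.single_le_sum (f := fun x => |ev A c x|) (fun x _ => abs_nonneg _)
        (Finset.mem_univ x)
    have h2 : |ev A c x| < B := by linarith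
    rw [abs_mul, abs_of_pos ht0, ht, div_mul_eq_mul_div, one_mul, div_lt_div_iff₀ (by positivity)
      (by norm_num)]
    linarith
  have hE : ∀ Z : Finset Q, En A Z (fun j => t * c j) = t ^ 2 * ∑ x ∈ Z, ev A c x ^ 2 := by
    intro Z
    unfold En
    rw [Finset.mul_sum]
    refine Finset.sum_congr rfl fun x _ => ?_
    rw [frame_ev_smul, frame_dz (hsm x)]
    ring
  have h1 := hY (fun j => t * c j)
  rw [hE, hE] at h1
  have h2 : 0 < t ^ 2 := by positivity
  refine le_of_mul_le_mul_left ?_ h2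
  linarith

/-- Frame: `L : (J → ℝ) →ₗ EuclideanSpace ℝ Y`, `c ↦ (ev A c x)_{x ∈ Y}` is injective
(`hlev` and `hinj`), `U = range L` has an orthonormal basis `stdOrthonormalBasis ℝ U`, `d = finrank U`;
`Φ = L⁻¹ ∘ repr⁻¹`.  `l x` is the Riesz vector of the functional `g ↦ ev A (Φ g) x`
(`∑ i, ev A (Φ (single i 1)) x • single i 1` or `(InnerProductSpace.toDual ℝ _).symm`).
`lev_le`: `g = l x` in `hlev`: `‖l x‖⁴ ≤ lev ‖l x‖²`. -/
theorem exists_frame (A : Q → J → ℤ) (Y : Finset Q) {lev : ℝ} (h0 : 0 ≤ lev)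
    (hlev : ∀ (c : J → ℝ) (x : Q), ev A c x ^ 2 ≤ lev * ∑ y ∈ Y, ev A c y ^ 2)
    (hinj : ∀ c : J → ℝ, (∀ x, ev A c x = 0) → c = 0) :
    ∃ (d : ℕ) (l : Q → E d) (Φ : E d ≃ₗ[ℝ] (J → ℝ)),
      (∀ g x, ev A (Φ g) x = inner ℝ (l x) g) ∧ Frame Y lev l := by
  -- evaluation as a linear map
  let evL : Q → ((J → ℝ) →ₗ[ℝ] ℝ) := fun x =>
    { toFun := fun c => ev A c x
      map_add' := fun c c' => by
        simp only [ev, Pi.add_apply, mul_add, Finset.sum_add_distrib]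
      map_smul' := fun t c => by
        simp only [ev, Pi.smul_apply, smul_eq_mul, RingHom.id_apply, Finset.mul_sum]
        exact Finset.sum_congr rfl fun j _ => by ring }
  let L : (J → ℝ) →ₗ[ℝ] EuclideanSpace ℝ Y :=
    { toFun := fun c => WithLp.toLp 2 fun x => ev A c x.1
      map_add' := fun c c' => by
        ext x
        exact (evL x.1).map_add c c'
      map_smul' := fun t c => by
        ext x
        exact (evL x.1).map_smul t c }
  have hL : ∀ c, ‖L c‖ ^ 2 = ∑ x ∈ Y, ev A c x ^ 2 := by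
    intro c
    rw [EuclideanSpace.real_norm_sq_eq]
    exact Finset.sum_coe_sort Y fun x => ev A c x ^ 2
  have hLi : Function.Injective L := by
    rw [← LinearMap.ker_eq_bot, LinearMap.ker_eq_bot']
    intro c hc
    refine hinj c fun x => ?_
    have h1 := hlev c x
    rw [← hL c, hc, norm_zero] at h1
    have h2 : ev A c x ^ 2 ≤ 0 := by linarith [h1]
    exact pow_eq_zero_iff (two_ne_zero) |>.1 (le_antisymm h2 (sq_nonneg _))
  let U := LinearMap.range L
  let e1 : (J → ℝ) ≃ₗ[ℝ] U := LinearEquiv.ofInjective L hLi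
  let ob := stdOrthonormalBasis ℝ U
  let Φ : E (Module.finrank ℝ U) ≃ₗ[ℝ] (J → ℝ) :=
    ob.repr.symm.toLinearEquiv.trans e1.symm
  have hΦ : ∀ g, ‖L (Φ g)‖ = ‖g‖ := by
    intro g
    have h1 : L (Φ g) = ((ob.repr.symm g : U) : EuclideanSpace ℝ Y) := by
      have h2 : ((e1 (Φ g) : U) : EuclideanSpace ℝ Y) = L (Φ g) := rfl
      rw [← h2]
      have h3 : e1 (Φ g) = ob.repr.symm g := e1.apply_symm_apply _
      rw [h3]
    rw [h1]
    exact ob.repr.symm.norm_map g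
  let l : Q → E (Module.finrank ℝ U) := fun x =>
    (InnerProductSpace.toDual ℝ (E (Module.finrank ℝ U))).symm
      (LinearMap.toContinuousLinearMap ((evL x).comp Φ.toLinearMap))
  have hl : ∀ g x, ev A (Φ g) x = inner ℝ (l x) g := by
    intro g x
    have h1 := InnerProductSpace.toDual_symm_apply (𝕜 := ℝ) (x := g)
      (y := LinearMap.toContinuousLinearMap ((evL x).comp Φ.toLinearMap))
    exact h1.symm
  have hp : ∀ g : E (Module.finrank ℝ U), ∑ x ∈ Y, (inner ℝ (l x) g : ℝ) ^ 2 = ‖g‖ ^ 2 := by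
    intro g
    rw [← hΦ g, hL]
    exact Finset.sum_congr rfl fun x _ => by rw [hl]
  refine ⟨Module.finrank ℝ U, l, Φ, hl, hp, fun x => ?_⟩
  have h1 := hlev (Φ (l x)) x
  rw [hl, real_inner_self_eq_norm_sq] at h1
  have h2 : ∑ y ∈ Y, ev A (Φ (l x)) y ^ 2 = ‖l x‖ ^ 2 := by
    rw [← hp (l x)]
    exact Finset.sum_congr rfl fun y _ => by rw [hl]
  rw [h2] at h1
  by_contra hcon
  push Not at hcon
  have h3 : 0 < ‖l x‖ ^ 2 := lt_of_le_of_lt h0 hcon
  nlinarith

/-- Assembly: `lev = δ / κ`. -/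
theorem frame_of_nice (A : Q → J → ℤ) {δ r κ : ℝ} (hA : Good A δ r) (hδ : 0 < δ) (hκ : 0 < κ)
    {Y : Finset Q} (hY : Nice A Y κ) :
    ∃ (d : ℕ) (l : Q → E d) (Φ : E d ≃ₗ[ℝ] (J → ℝ)),
      (∀ g x, ev A (Φ g) x = inner ℝ (l x) g) ∧ Frame Y (δ / κ) l := by
  refine exists_frame A Y (div_nonneg hδ.le hκ.le) (fun c x => ?_) hA.inj
  have h1 := hA.lev c x
  have h2 := nice_sq A hY c
  have h3 : ∑ y, ev A c y ^ 2 ≤ (∑ y ∈ Y, ev A c y ^ 2) / κ := by
    rw [le_div_iff₀ hκ]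
    linarith
  calc ev A c x ^ 2 ≤ δ * ∑ y, ev A c y ^ 2 := h1
    _ ≤ δ * ((∑ y ∈ Y, ev A c y ^ 2) / κ) := mul_le_mul_of_nonneg_left h3 hδ.le
    _ = δ / κ * ∑ y ∈ Y, ev A c y ^ 2 := by ring

end P047F.III
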