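import Vale.Agent.Lib.P047F.III.Defs

/-!
# P047F, Part III, module GaussA: Gaussian weight on `E d` (only translations are used)
-/

open Finset MeasureTheory

namespace P047F.III

variable {d : ℕ}

/-- Gaussian weight (not normalised) -/
noncomputable def gF (v : E d) : ℝ := Real.exp (-‖v‖ ^ 2 / 2)

/-- its total integral -/
noncomputable def gZ (d : ℕ) : ℝ := ∫ v : E d, gF v

private theorem GaussA_eq : (gF : E d → ℝ) = fun v => Real.exp (-(1 / 2) * ‖v‖ ^ 2) := by
  funext v
  unfold gF
  congr 1
  ring

private theorem GaussA_nonneg (v : E d) : 0 ≤ gF v := (Real.exp_pos _).le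

theorem gZ_pos : 0 < gZ d := by
  unfold gZ
  rw [GaussA_eq, GaussianFourier.integral_rexp_neg_mul_sq_norm (by norm_num)]
  positivity

/-- `GaussianFourier.integrable_cexp_neg_mul_sq_norm_add` or similar -/
theorem integrable_gF : Integrable (gF : E d → ℝ) := by
  by_contra h
  have h1 : ∫ v : E d, gF v = 0 := integral_undef h
  have h2 : 0 < ∫ v : E d, gF v := gZ_pos
  exact h2.ne' h1

private theorem GaussA_square (a v : E d) :
    Real.exp (inner ℝ a v) * gF v = Real.exp (‖a‖ ^ 2 / 2) * gF (v - a) := by
  unfold gF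
  rw [← Real.exp_add, ← Real.exp_add, norm_sub_sq_real, real_inner_comm]
  congr 1
  ring

/-- complete the square: `⟪a,v⟫ - ‖v‖²/2 = ‖a‖²/2 - ‖v - a‖²/2`, translation invariance -/
theorem integrable_exp_inner (a : E d) :
    Integrable (fun v : E d => Real.exp (inner ℝ a v) * gF v) := by
  simp_rw [GaussA_square a]
  exact (integrable_gF.comp_sub_right a).const_mul _

theorem integral_exp_inner (a : E d) :
    ∫ v : E d, Real.exp (inner ℝ a v) * gF v = Real.exp (‖a‖ ^ 2 / 2) * gZ d := by
  simp_rw [GaussA_square a]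
  rw [integral_const_mul, integral_sub_right_eq_self]
  rfl

/-- Chernoff from `integral_exp_inner` with `± (t/lev) • a`: on the set
`gF v ≤ exp (-t²/lev) * (exp ((t/lev)⟪a,v⟫) + exp (-(t/lev)⟪a,v⟫)) * gF v`. -/
theorem tail_inner (a : E d) {lev t : ℝ} (h : ‖a‖ ^ 2 ≤ lev) (hlev : 0 < lev) (ht : 0 < t) :
    ∫ v in {v : E d | t < |(inner ℝ a v : ℝ)|}, gF v ≤ 2 * Real.exp (-t ^ 2 / (2 * lev)) * gZ d := by
  set s := t / lev with hs
  have hs0 : 0 < s := div_pos ht hlev
  have hsl : s * lev = t := by rw [hs]; field_simp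
  set G : E d → ℝ := fun v => Real.exp (-t ^ 2 / lev) *
    (Real.exp (inner ℝ (s • a) v) * gF v + Real.exp (inner ℝ (-(s • a)) v) * gF v) with hG
  have i1 := integrable_exp_inner (s • a)
  have i2 := integrable_exp_inner (-(s • a))
  have iG : Integrable G := (i1.add i2).const_mul _
  have hG0 : ∀ v, 0 ≤ G v := by
    intro v
    have := GaussA_nonneg v
    positivity
  have hm : MeasurableSet {v : E d | t < |(inner ℝ a v : ℝ)|} := by
    refine (isOpen_lt continuous_const ?_).measurableSet
    fun_prop
  calc ∫ v in {v : E d | t < |(inner ℝ a v : ℝ)|}, gF v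
      ≤ ∫ v in {v : E d | t < |(inner ℝ a v : ℝ)|}, G v := by
        refine setIntegral_mono_on integrable_gF.integrableOn iG.integrableOn hm fun v hv => ?_
        have hv' : t < |(inner ℝ a v : ℝ)| := hv
        have e1 : (inner ℝ (s • a) v : ℝ) = s * inner ℝ a v := real_inner_smul_left _ _ _
        have e2 : (inner ℝ (-(s • a)) v : ℝ) = -(s * inner ℝ a v) := by
          rw [inner_neg_left, e1]
        have e3 : 1 ≤ Real.exp (-t ^ 2 / lev) *
            (Real.exp (s * inner ℝ a v) + Real.exp (-(s * inner ℝ a v))) := by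
          have e4 : Real.exp (s * |(inner ℝ a v : ℝ)|) ≤
              Real.exp (s * inner ℝ a v) + Real.exp (-(s * inner ℝ a v)) := by
            rcases abs_cases (inner ℝ a v : ℝ) with h6 | h6
            · rw [h6.1]
              linarith [Real.exp_pos (-(s * (inner ℝ a v : ℝ)))]
            · rw [h6.1, mul_neg]
              linarith [Real.exp_pos (s * (inner ℝ a v : ℝ))]
          have e5 : Real.exp (t ^ 2 / lev) ≤ Real.exp (s * |(inner ℝ a v : ℝ)|) := by
            apply Real.exp_le_exp.2
            have : t ^ 2 / lev = s * t := by rw [hs]; ring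
            rw [this]
            exact mul_le_mul_of_nonneg_left hv'.le hs0.le
          have e6 : Real.exp (-t ^ 2 / lev) * Real.exp (t ^ 2 / lev) = 1 := by
            rw [← Real.exp_add, neg_div, neg_add_cancel, Real.exp_zero]
          calc (1 : ℝ) = Real.exp (-t ^ 2 / lev) * Real.exp (t ^ 2 / lev) := e6.symm
            _ ≤ _ := mul_le_mul_of_nonneg_left (e5.trans e4) (Real.exp_pos _).le
        have e7 : G v = (Real.exp (-t ^ 2 / lev) *
            (Real.exp (s * inner ℝ a v) + Real.exp (-(s * inner ℝ a v)))) * gF v := by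
          simp only [hG]
          rw [e1, e2]
          ring
        rw [e7]
        have := GaussA_nonneg v
        nlinarith
    _ ≤ ∫ v, G v := setIntegral_le_integral iG (Filter.Eventually.of_forall hG0)
    _ = Real.exp (-t ^ 2 / lev) * (2 * (Real.exp (‖s • a‖ ^ 2 / 2) * gZ d)) := by
        simp only [hG]
        rw [integral_const_mul, integral_add i1 i2, integral_exp_inner, integral_exp_inner, norm_neg]
        ring
    _ ≤ Real.exp (-t ^ 2 / lev) * (2 * (Real.exp (t ^ 2 / (2 * lev)) * gZ d)) := by
        have hz := gZ_pos (d := d)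
        have e8 : ‖s • a‖ ^ 2 / 2 ≤ t ^ 2 / (2 * lev) := by
          rw [norm_smul, mul_pow, Real.norm_eq_abs, sq_abs]
          have e9 : t ^ 2 / (2 * lev) = s ^ 2 * lev / 2 := by
            rw [← hsl]
            field_simp
          rw [e9]
          have := mul_le_mul_of_nonneg_left h (sq_nonneg s)
          linarith
        have e10 := Real.exp_le_exp.2 e8
        gcongr
    _ = 2 * Real.exp (-t ^ 2 / (2 * lev)) * gZ d := by
        have e11 : Real.exp (-t ^ 2 / lev) * Real.exp (t ^ 2 / (2 * lev)) =
            Real.exp (-t ^ 2 / (2 * lev)) := by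
          rw [← Real.exp_add]
          congr 1
          field_simp
          ring
        rw [← e11]
        ring

/-- symmetric sets: `2 ∫_S gF (v + b) = ∫_S (gF (v + b) + gF (v - b))` (change `v → -v`) and
`gF (v+b) + gF (v-b) ≥ 2 exp (-‖b‖²/2) gF v` (`cosh ≥ 1`). -/
theorem shift_ge (S : Set (E d)) (hS : MeasurableSet S) (hsym : ∀ v, v ∈ S → -v ∈ S) (b : E d) :
    Real.exp (-‖b‖ ^ 2 / 2) * ∫ v in S, gF v ≤ ∫ v in S, gF (v + b) := by
  have i1 : Integrable (fun v : E d => gF (v + b)) := integrable_gF.comp_add_right b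
  have i2 : Integrable (fun v : E d => gF (v - b)) := integrable_gF.comp_sub_right b
  have hsymm : (fun v : E d => -v) ⁻¹' S = S := by
    ext v
    constructor
    · intro hv
      have := hsym _ hv
      rwa [neg_neg] at this
    · intro hv
      exact hsym v hv
  have e1 : ∫ v in S, gF (v - b) = ∫ v in S, gF (v + b) := by
    have h := (Measure.measurePreserving_neg (volume : Measure (E d))).setIntegral_preimage_emb
      (MeasurableEquiv.neg (E d)).measurableEmbedding (fun v => gF (v + b)) S
    have h2 : (Neg.neg : E d → E d) ⁻¹' S = S := hsymm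
    rw [h2] at h
    rw [← h]
    refine integral_congr_ae (Filter.Eventually.of_forall fun v => ?_)
    unfold gF
    simp only
    rw [show -v + b = -(v - b) by abel, norm_neg]
  have e2 : 2 * ∫ v in S, gF (v + b) = ∫ v in S, (gF (v + b) + gF (v - b)) := by
    rw [integral_add i1.integrableOn i2.integrableOn, e1]
    ring
  have e3 : ∫ v in S, 2 * (Real.exp (-‖b‖ ^ 2 / 2) * gF v) ≤
      ∫ v in S, (gF (v + b) + gF (v - b)) := by
    refine setIntegral_mono_on ?_ (i1.add i2).integrableOn hS fun v _ => ?_
    · exact ((integrable_gF.const_mul _).const_mul _).integrableOn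
    · have h1 : gF (v + b) = Real.exp (-‖b‖ ^ 2 / 2) * gF v * Real.exp (-(inner ℝ v b)) := by
        unfold gF
        rw [← Real.exp_add, ← Real.exp_add, norm_add_sq_real]
        congr 1
        ring
      have h2 : gF (v - b) = Real.exp (-‖b‖ ^ 2 / 2) * gF v * Real.exp (inner ℝ v b) := by
        unfold gF
        rw [← Real.exp_add, ← Real.exp_add, norm_sub_sq_real]
        congr 1
        ring
      have h3 : 2 ≤ Real.exp (-(inner ℝ v b)) + Real.exp (inner ℝ v b) := by
        have h4 := Real.add_one_le_exp (-(inner ℝ v b : ℝ))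
        have h5 := Real.add_one_le_exp (inner ℝ v b : ℝ)
        linarith
      rw [h1, h2]
      have h6 : 0 ≤ Real.exp (-‖b‖ ^ 2 / 2) * gF v :=
        mul_nonneg (Real.exp_pos _).le (GaussA_nonneg v)
      nlinarith
  rw [integral_const_mul, integral_const_mul] at e3
  linarith

end P047F.III
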