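import Vale.Agent.Lib.P047F.III.GaussA

/-!
# P047F, Part III, module GaussE: one variable integral, eigenbasis
-/

open Finset MeasureTheory

namespace P047F.III

variable {Q : Type} {d : ℕ}

theorem GaussE_exp {u : ℝ} (h0 : 0 ≤ u) (h1 : u ≤ 1 / 4) : 1 ≤ (1 - 2 * u) * Real.exp (4 * u) := by
  have h2 := Real.quadratic_le_exp_of_nonneg (by linarith : 0 ≤ 4 * u)
  have h3 : (1 - 2 * u) * (1 + 4 * u + (4 * u) ^ 2 / 2) ≤ (1 - 2 * u) * Real.exp (4 * u) :=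
    mul_le_mul_of_nonneg_left h2 (by linarith)
  refine le_trans ?_ h3
  nlinarith [mul_nonneg h0 h0, mul_nonneg h0 (by linarith : 0 ≤ 1 / 4 - u),
    mul_nonneg (mul_nonneg h0 h0) (by linarith : 0 ≤ 1 / 4 - u)]

/-- one variable: `∫ exp (u g² - g²/2) = sqrt (π/(1/2 - u)) ≤ exp (2u) sqrt (2π)` for `0 ≤ u ≤ 1/4`
(`integral_gaussian`; `exp (-4u) ≤ 1 - 2u` on `[0,1/4]`) -/
theorem one_var {u : ℝ} (h0 : 0 ≤ u) (h1 : u ≤ 1 / 4) :
    Integrable (fun g : ℝ => Real.exp (u * g ^ 2 - g ^ 2 / 2)) ∧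
    ∫ g : ℝ, Real.exp (u * g ^ 2 - g ^ 2 / 2) ≤ Real.exp (2 * u) * ∫ g : ℝ, Real.exp (- g ^ 2 / 2) := by
  have e1 : (fun g : ℝ => Real.exp (u * g ^ 2 - g ^ 2 / 2)) =
      fun g : ℝ => Real.exp (-(1 / 2 - u) * g ^ 2) := by
    funext g
    congr 1
    ring
  have e2 : (fun g : ℝ => Real.exp (- g ^ 2 / 2)) = fun g : ℝ => Real.exp (-(1 / 2) * g ^ 2) := by
    funext g
    congr 1
    ring
  rw [e1, e2]
  refine ⟨integrable_exp_neg_mul_sq (by linarith), ?_⟩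
  rw [integral_gaussian, integral_gaussian]
  have h2 : Real.exp (2 * u) = Real.sqrt (Real.exp (4 * u)) := by
    rw [eq_comm, Real.sqrt_eq_iff_mul_self_eq (Real.exp_pos _).le (Real.exp_pos _).le,
      ← Real.exp_add]
    congr 1
    ring
  rw [h2, ← Real.sqrt_mul (Real.exp_pos _).le]
  apply Real.sqrt_le_sqrt
  rw [div_le_iff₀ (by linarith)]
  have h3 := GaussE_exp h0 h1
  have h4 := Real.pi_pos
  have h5 : Real.exp (4 * u) * (Real.pi / (1 / 2)) * (1 / 2 - u) =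
      Real.pi * ((1 - 2 * u) * Real.exp (4 * u)) := by ring
  rw [h5]
  nlinarith

/-- eigenbasis of the symmetric operator `T v = ∑_{x ∈ Y} φ x² ⟪l x, v⟫ l x`
(`LinearMap.IsSymmetric.eigenvectorBasis`): `α i = ⟪T b_i, b_i⟫ = ∑ φ x² ⟪l x, b_i⟫² ≤ ‖b_i‖² = 1`
(Parseval of the frame), `∑ α i = ∑_{x ∈ Y} φ x² ‖l x‖² ≤ lev M`. -/
theorem eigen (Y : Finset Q) (l : Q → E d) {lev : ℝ} (hF : Frame Y lev l) (φ : Q → ℝ)
    (hφ : ∀ x ∈ Y, |φ x| ≤ 1) {M : ℝ} (hM : ∑ x ∈ Y, φ x ^ 2 ≤ M) (hlev : 0 ≤ lev) :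
    ∃ (b : OrthonormalBasis (Fin d) ℝ (E d)) (α : Fin d → ℝ), (∀ i, 0 ≤ α i ∧ α i ≤ 1) ∧
      ∑ i, α i ≤ lev * M ∧
      ∀ v : E d, ∑ x ∈ Y, φ x ^ 2 * (inner ℝ (l x) v : ℝ) ^ 2 = ∑ i, α i * (b.repr v i) ^ 2 := by
  classical
  let T : E d →ₗ[ℝ] E d :=
    { toFun := fun v => ∑ x ∈ Y, (φ x ^ 2 * (inner ℝ (l x) v : ℝ)) • l x
      map_add' := fun v w => by
        rw [← Finset.sum_add_distrib]
        refine Finset.sum_congr rfl fun x _ => ?_
        rw [inner_add_right, mul_add, add_smul]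
      map_smul' := fun c v => by
        rw [RingHom.id_apply, Finset.smul_sum]
        refine Finset.sum_congr rfl fun x _ => ?_
        rw [inner_smul_right, smul_smul]
        congr 1
        ring }
  have hTv : ∀ v w : E d, (inner ℝ w (T v) : ℝ) =
      ∑ x ∈ Y, φ x ^ 2 * ((inner ℝ (l x) v : ℝ) * (inner ℝ (l x) w : ℝ)) := by
    intro v w
    change (inner ℝ w (∑ x ∈ Y, (φ x ^ 2 * (inner ℝ (l x) v : ℝ)) • l x) : ℝ) = _
    rw [inner_sum]
    refine Finset.sum_congr rfl fun x _ => ?_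
    rw [inner_smul_right, real_inner_comm w (l x)]
    ring
  have hsym : T.IsSymmetric := by
    intro v w
    rw [real_inner_comm, hTv, hTv]
    refine Finset.sum_congr rfl fun x _ => ?_
    ring
  have hn : Module.finrank ℝ (E d) = d := by simp
  set b := hsym.eigenvectorBasis hn with hb
  set α := hsym.eigenvalues hn with hα
  have hαi : ∀ i, α i = ∑ x ∈ Y, φ x ^ 2 * (inner ℝ (l x) (b i) : ℝ) ^ 2 := by
    intro i
    have h1 := hTv (b i) (b i)
    have h2 : T (b i) = (α i : ℝ) • b i := hsym.apply_eigenvectorBasis hn i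
    rw [h2, inner_smul_right, real_inner_self_eq_norm_sq, b.norm_eq_one] at h1
    have h3 : α i = ∑ x ∈ Y, φ x ^ 2 * ((inner ℝ (l x) (b i) : ℝ) * (inner ℝ (l x) (b i) : ℝ)) := by
      rw [← h1]
      ring
    rw [h3]
    refine Finset.sum_congr rfl fun x _ => ?_
    ring
  refine ⟨b, α, fun i => ⟨?_, ?_⟩, ?_, fun v => ?_⟩
  · rw [hαi]
    exact Finset.sum_nonneg fun x _ => by positivity
  · rw [hαi]
    have h1 := hF.pars (b i)
    rw [b.norm_eq_one, one_pow] at h1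
    rw [← h1]
    refine Finset.sum_le_sum fun x hx => ?_
    have h2 : φ x ^ 2 ≤ 1 := by
      rw [← sq_abs]
      exact pow_le_one₀ (abs_nonneg _) (hφ x hx)
    nlinarith [sq_nonneg (inner ℝ (l x) (b i) : ℝ)]
  · have h1 : ∑ i, α i = ∑ x ∈ Y, φ x ^ 2 * ‖l x‖ ^ 2 := by
      simp only [hαi]
      rw [Finset.sum_comm]
      refine Finset.sum_congr rfl fun x _ => ?_
      rw [← Finset.mul_sum]
      congr 1
      rw [← b.sum_sq_norm_inner_left (l x)]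
      refine Finset.sum_congr rfl fun i _ => ?_
      rw [Real.norm_eq_abs, sq_abs]
    rw [h1]
    calc ∑ x ∈ Y, φ x ^ 2 * ‖l x‖ ^ 2 ≤ ∑ x ∈ Y, φ x ^ 2 * lev :=
          Finset.sum_le_sum fun x _ => mul_le_mul_of_nonneg_left (hF.lev_le x) (sq_nonneg _)
      _ = lev * ∑ x ∈ Y, φ x ^ 2 := by rw [← Finset.sum_mul, mul_comm]
      _ ≤ lev * M := mul_le_mul_of_nonneg_left hM hlev
  · have h1 := hTv v v
    have h2 : ∑ x ∈ Y, φ x ^ 2 * (inner ℝ (l x) v : ℝ) ^ 2 = inner ℝ v (T v) := by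
      rw [h1]
      refine Finset.sum_congr rfl fun x _ => ?_
      ring
    rw [h2, ← b.sum_inner_mul_inner v (T v)]
    refine Finset.sum_congr rfl fun i _ => ?_
    rw [← b.repr_apply_apply, hsym.eigenvectorBasis_apply_self_apply hn, real_inner_comm,
      ← b.repr_apply_apply]
    simp only [← hb, ← hα]
    simp only [RCLike.ofReal_real_eq_id, id_eq]
    ring

end P047F.III
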