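import Vale.Agent.Lib.P047F.III.GaussE

/-!
# P047F, Part III, module GaussQ: Gaussian integral of `exp` of a quadratic form
-/

open Finset MeasureTheory

namespace P047F.III

variable {Q : Type} {d : ℕ}

/-- product functions in an orthonormal basis -/
theorem GaussQ_prod (b : OrthonormalBasis (Fin d) ℝ (E d)) (h : Fin d → ℝ → ℝ)
    (hi : ∀ i, Integrable (h i)) :
    Integrable (fun v : E d => ∏ i, h i (b.repr v i)) ∧
      ∫ v : E d, ∏ i, h i (b.repr v i) = ∏ i, ∫ g : ℝ, h i g := by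
  have h1 : MeasurePreserving b.repr := b.measurePreserving_repr
  have h2 := EuclideanSpace.volume_preserving_symm_measurableEquiv_toLp (Fin d)
  have h3 := h2.comp h1
  have hG : Integrable (fun w : Fin d → ℝ => ∏ i, h i (w i)) := Integrable.fintype_prod hi
  have hemb : MeasurableEmbedding
      ((MeasurableEquiv.toLp 2 (Fin d → ℝ)).symm ∘ b.repr) :=
    (MeasurableEquiv.toLp 2 (Fin d → ℝ)).symm.measurableEmbedding.comp
      b.repr.toHomeomorph.measurableEmbedding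
  refine ⟨?_, ?_⟩
  · have h4 := (h3.integrable_comp_emb hemb (g := fun w : Fin d → ℝ => ∏ i, h i (w i))).2 hG
    exact h4
  · have h4 := h3.integral_comp hemb (fun w : Fin d → ℝ => ∏ i, h i (w i))
    rw [integral_fintype_prod_volume_eq_prod] at h4
    exact h4

/-- diagonalise (`eigen`), change variables with `b.repr` (`OrthonormalBasis.measurePreserving_repr`,
then `EuclideanSpace.volume_preserving_symm_measurableEquiv_toLp` or similar) and
`integral_fintype_prod_eq_prod`, `one_var` with `u = c α i`. -/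
theorem quad_int (Y : Finset Q) (l : Q → E d) {lev : ℝ} (hF : Frame Y lev l) (φ : Q → ℝ)
    (hφ : ∀ x ∈ Y, |φ x| ≤ 1) {M : ℝ} (hM : ∑ x ∈ Y, φ x ^ 2 ≤ M) (hlev : 0 ≤ lev)
    {c : ℝ} (hc : 0 ≤ c) (hc1 : c ≤ 1 / 4) :
    Integrable (fun v : E d =>
      Real.exp (c * ∑ x ∈ Y, φ x ^ 2 * (inner ℝ (l x) v : ℝ) ^ 2) * gF v) ∧
    ∫ v : E d, Real.exp (c * ∑ x ∈ Y, φ x ^ 2 * (inner ℝ (l x) v : ℝ) ^ 2) * gF v
      ≤ Real.exp (2 * c * (lev * M)) * gZ d := by
  obtain ⟨b, α, hα, hsum, hq⟩ := eigen Y l hF φ hφ hM hlev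
  have hu0 : ∀ i, 0 ≤ c * α i := fun i => mul_nonneg hc (hα i).1
  have hu1 : ∀ i, c * α i ≤ 1 / 4 := fun i =>
    (mul_le_of_le_one_right hc (hα i).2).trans hc1
  have hone := fun i => one_var (hu0 i) (hu1 i)
  have hzero := one_var (u := 0) le_rfl (by norm_num)
  have hnorm : ∀ v : E d, ‖v‖ ^ 2 = ∑ i, (b.repr v i) ^ 2 := by
    intro v
    rw [← b.repr.norm_map v, EuclideanSpace.norm_sq_eq]
    refine Finset.sum_congr rfl fun i _ => ?_
    rw [Real.norm_eq_abs, sq_abs]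
  have hFeq : (fun v : E d =>
      Real.exp (c * ∑ x ∈ Y, φ x ^ 2 * (inner ℝ (l x) v : ℝ) ^ 2) * gF v) =
      fun v : E d => ∏ i, Real.exp (c * α i * (b.repr v i) ^ 2 - (b.repr v i) ^ 2 / 2) := by
    funext v
    rw [gF, hq v, hnorm v, ← Real.exp_add, ← Real.exp_sum]
    congr 1
    rw [Finset.mul_sum, neg_div, Finset.sum_div, ← sub_eq_add_neg, ← Finset.sum_sub_distrib]
    refine Finset.sum_congr rfl fun i _ => ?_
    ring
  have hGeq : (gF : E d → ℝ) = fun v : E d => ∏ i, Real.exp (-(b.repr v i) ^ 2 / 2) := by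
    funext v
    rw [gF, hnorm v, ← Real.exp_sum]
    congr 1
    rw [neg_div, Finset.sum_div, ← Finset.sum_neg_distrib]
    refine Finset.sum_congr rfl fun i _ => ?_
    ring
  have hint0 : Integrable (fun g : ℝ => Real.exp (-g ^ 2 / 2)) := by
    refine hzero.1.congr (Filter.Eventually.of_forall fun g => ?_)
    show Real.exp (0 * g ^ 2 - g ^ 2 / 2) = Real.exp (-g ^ 2 / 2)
    congr 1
    ring
  have hP := GaussQ_prod b (fun i g => Real.exp (c * α i * g ^ 2 - g ^ 2 / 2))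
    (fun i => (hone i).1)
  have hP0 := GaussQ_prod b (fun _ g => Real.exp (-g ^ 2 / 2)) (fun _ => hint0)
  have hZ : gZ d = ∏ _i : Fin d, ∫ g : ℝ, Real.exp (-g ^ 2 / 2) := by
    rw [gZ, hGeq]
    exact hP0.2
  refine ⟨by rw [hFeq]; exact hP.1, ?_⟩
  rw [hFeq, hP.2, hZ]
  have hI0 : 0 ≤ ∫ g : ℝ, Real.exp (-g ^ 2 / 2) :=
    integral_nonneg fun g => (Real.exp_pos _).le
  calc ∏ i, ∫ g : ℝ, Real.exp (c * α i * g ^ 2 - g ^ 2 / 2)
      ≤ ∏ i, (Real.exp (2 * (c * α i)) * ∫ g : ℝ, Real.exp (-g ^ 2 / 2)) :=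
        Finset.prod_le_prod (fun i _ => integral_nonneg fun g => (Real.exp_pos _).le)
          fun i _ => (hone i).2
    _ = Real.exp (2 * c * ∑ i, α i) * ∏ _i : Fin d, ∫ g : ℝ, Real.exp (-g ^ 2 / 2) := by
        rw [Finset.prod_mul_distrib, ← Real.exp_sum]
        congr 2
        rw [Finset.mul_sum]
        refine Finset.sum_congr rfl fun i _ => ?_
        ring
    _ ≤ Real.exp (2 * c * (lev * M)) * ∏ _i : Fin d, ∫ g : ℝ, Real.exp (-g ^ 2 / 2) := by
        refine mul_le_mul_of_nonneg_right (Real.exp_le_exp.2 ?_)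
          (Finset.prod_nonneg fun _ _ => hI0)
        exact mul_le_mul_of_nonneg_left hsum (by positivity)

end P047F.III
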