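import Vale.Agent.Lib.P047F.III.Defs

/-!
# P047F, Part III, module GramA: deterministic iteration for the Gram property
-/

open Finset

namespace P047F.III

variable {Q : Type} {d : ℕ}

/-- level `i` (`M = 2^i`) is good: all points of some `2^{-k}`-net pass the test -/
def LevelOk (Y : Finset Q) (l : Q → E d) (s z : Q → ℤ) (k i : ℕ) : Prop :=
  ∃ N : Finset (E d), IsNet l (2 ^ i) ((1 / 2) ^ k) N ∧
    ∀ b ∈ N, Ok Y l s z (fun x => inner ℝ (l x) b) ((1 / 2) ^ k) (2 ^ i)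

/-- `q(2^i) ≤ a` -/
def Bd (Y : Finset Q) (l : Q → E d) (s z : Q → ℤ) (i : ℕ) (a : ℝ) : Prop :=
  ∀ e ∈ Ball l (2 ^ i),
    |∑ x ∈ Y, ((s x * z x : ℤ) : ℝ) * (inner ℝ (l x) e : ℝ) ^ 2| ≤ a * 2 ^ i

theorem GramA_mono {Y : Finset Q} {l : Q → E d} {s z : Q → ℤ} {i : ℕ} {a b : ℝ}
    (h : Bd Y l s z i a) (hab : a ≤ b) : Bd Y l s z i b := fun e he =>
  (h e he).trans (mul_le_mul_of_nonneg_right hab (by positivity))

/-- trivial bound: `|⟪l x,e⟫| ≤ 1`, `|s x z x| = 1` -/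
theorem Bd_base {Y : Finset Q} {l : Q → E d} {s z : Q → ℤ} (hs : ∀ x, s x = 1 ∨ s x = -1)
    (hz : ∀ x ∈ Y, z x = 1 ∨ z x = -1) {i : ℕ} {N : ℝ} (hN : (Y.card : ℝ) ≤ N) :
    Bd Y l s z i (N / 2 ^ i) := by
  intro e he
  have h2 : (0 : ℝ) < 2 ^ i := by positivity
  rw [div_mul_cancel₀ _ h2.ne']
  refine (Finset.abs_sum_le_sum_abs _ _).trans ?_
  refine le_trans ?_ hN
  have h3 : ∀ x ∈ Y, |((s x * z x : ℤ) : ℝ) * (inner ℝ (l x) e : ℝ) ^ 2| ≤ 1 := by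
    intro x hx
    have h4 : |((s x * z x : ℤ) : ℝ)| = 1 := by
      rcases hs x with h | h <;> rcases hz x hx with h' | h' <;> rw [h, h'] <;> norm_num
    rw [abs_mul, h4, one_mul, abs_pow]
    exact pow_le_one₀ (abs_nonneg _) (he.2 x)
  refine (Finset.sum_le_sum h3).trans ?_
  rw [Finset.sum_const, nsmul_eq_mul, mul_one]

/-- one step: `e = b + e'`, `b` in the net, `|⟪l x, e'⟫| ≤ η = 2^{-k}`, `‖e'‖ ≤ 2 sqrt (2^i)`.
`|∑ ζ ⟪l x,b⟫²| ≤ η 2^i`; `2|∑ ζ ⟪l x,b⟫⟪l x,e'⟫| = 2|⟪∑ ζ⟪l x,b⟫ l x, e'⟫| ≤ 2 η sqrt(2^i) 2 sqrt(2^i)`;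
`e'/η = 2^k • e' ∈ Ball l (2^(i+(2+2k)))`, so `|∑ ζ ⟪l x,e'⟫²| ≤ η² a 2^(i+2+2k) = 4 a 2^i`. -/
theorem Bd_step {Y : Finset Q} {l : Q → E d} {s z : Q → ℤ} {k i : ℕ} {a : ℝ}
    (h1 : LevelOk Y l s z k i) (h2 : Bd Y l s z (i + (2 + 2 * k)) a) :
    Bd Y l s z i (5 * (1 / 2) ^ k + 4 * a) := by
  intro e he
  obtain ⟨N, hN, hok⟩ := h1
  obtain ⟨b, hb, hbe⟩ := hN.2 e he
  obtain ⟨ok1, ok2⟩ := hok b hb
  have hbB := hN.1 b hb
  obtain ⟨e', he'⟩ : ∃ e' : E d, e' = e - b := ⟨_, rfl⟩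
  rw [← he'] at hbe
  have hM : (0 : ℝ) < 2 ^ i := by positivity
  obtain ⟨R, hR⟩ : ∃ R : ℝ, R = Real.sqrt (2 ^ i) := ⟨_, rfl⟩
  have hR0 : 0 ≤ R := by rw [hR]; exact Real.sqrt_nonneg _
  have hR2 : R ^ 2 = 2 ^ i := by rw [hR]; exact Real.sq_sqrt hM.le
  obtain ⟨η, hη⟩ : ∃ η : ℝ, η = (1 / 2 : ℝ) ^ k := ⟨_, rfl⟩
  have hη0 : 0 < η := by rw [hη]; positivity
  rw [← hη] at ok1 ok2 hbe
  have nb : ‖b‖ ≤ R := by
    refine le_of_sq_le_sq ?_ hR0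
    rw [hR2]; exact hbB.1
  have ne : ‖e‖ ≤ R := by
    refine le_of_sq_le_sq ?_ hR0
    rw [hR2]; exact he.1
  have ne' : ‖e'‖ ≤ 2 * R := by
    rw [he']
    calc ‖e - b‖ ≤ ‖e‖ + ‖b‖ := norm_sub_le _ _
      _ ≤ 2 * R := by linarith
  -- the decomposition
  have hsum : ∑ x ∈ Y, ((s x * z x : ℤ) : ℝ) * (inner ℝ (l x) e : ℝ) ^ 2 =
      (∑ x ∈ Y, ((s x * z x : ℤ) : ℝ) * (inner ℝ (l x) b : ℝ) ^ 2) +
      2 * (inner ℝ (∑ x ∈ Y, (((s x * z x : ℤ) : ℝ) * (inner ℝ (l x) b : ℝ)) • l x) e' : ℝ) +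
      ∑ x ∈ Y, ((s x * z x : ℤ) : ℝ) * (inner ℝ (l x) e' : ℝ) ^ 2 := by
    rw [sum_inner, Finset.mul_sum, ← Finset.sum_add_distrib, ← Finset.sum_add_distrib]
    refine Finset.sum_congr rfl fun x _ => ?_
    have : e = b + e' := by rw [he']; abel
    rw [this, inner_add_right, real_inner_smul_left]
    ring
  have t1 : |∑ x ∈ Y, ((s x * z x : ℤ) : ℝ) * (inner ℝ (l x) b : ℝ) ^ 2| ≤ η * 2 ^ i := ok1
  have t2 : |2 * (inner ℝ (∑ x ∈ Y, (((s x * z x : ℤ) : ℝ) * (inner ℝ (l x) b : ℝ)) • l x) e' : ℝ)|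
      ≤ 4 * η * 2 ^ i := by
    have h3 : ‖∑ x ∈ Y, (((s x * z x : ℤ) : ℝ) * (inner ℝ (l x) b : ℝ)) • l x‖ ≤ η * R := by
      refine le_of_sq_le_sq ?_ (by positivity)
      rw [mul_pow, hR2]
      exact ok2
    rw [abs_mul, abs_two]
    calc 2 * |(inner ℝ (∑ x ∈ Y, (((s x * z x : ℤ) : ℝ) * (inner ℝ (l x) b : ℝ)) • l x) e' : ℝ)|
        ≤ 2 * (‖∑ x ∈ Y, (((s x * z x : ℤ) : ℝ) * (inner ℝ (l x) b : ℝ)) • l x‖ * ‖e'‖) :=
          mul_le_mul_of_nonneg_left (abs_real_inner_le_norm _ _) (by norm_num)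
      _ ≤ 2 * ((η * R) * (2 * R)) :=
          mul_le_mul_of_nonneg_left (mul_le_mul h3 ne' (norm_nonneg _) (by positivity))
            (by norm_num)
      _ = 4 * η * R ^ 2 := by ring
      _ = 4 * η * 2 ^ i := by rw [hR2]
  have t3 : |∑ x ∈ Y, ((s x * z x : ℤ) : ℝ) * (inner ℝ (l x) e' : ℝ) ^ 2| ≤ 4 * a * 2 ^ i := by
    have hk : (2 : ℝ) ^ k * η = 1 := by
      rw [hη, ← mul_pow]
      norm_num
    have hk0 : (0 : ℝ) < 2 ^ k := by positivity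
    have hmem : (2 : ℝ) ^ k • e' ∈ Ball l (2 ^ (i + (2 + 2 * k))) := by
      refine ⟨?_, fun x => ?_⟩
      · rw [norm_smul, mul_pow, Real.norm_of_nonneg hk0.le]
        have h4 : ‖e'‖ ^ 2 ≤ 4 * 2 ^ i := by
          calc ‖e'‖ ^ 2 ≤ (2 * R) ^ 2 := pow_le_pow_left₀ (norm_nonneg _) ne' 2
            _ = 4 * R ^ 2 := by ring
            _ = 4 * 2 ^ i := by rw [hR2]
        calc ((2 : ℝ) ^ k) ^ 2 * ‖e'‖ ^ 2 ≤ ((2 : ℝ) ^ k) ^ 2 * (4 * 2 ^ i) :=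
              mul_le_mul_of_nonneg_left h4 (by positivity)
          _ = 2 ^ (i + (2 + 2 * k)) := by
              rw [pow_add, pow_add, pow_mul']
              ring
      · rw [real_inner_smul_right, abs_mul, abs_of_pos hk0]
        calc (2 : ℝ) ^ k * |(inner ℝ (l x) e' : ℝ)| ≤ 2 ^ k * η :=
              mul_le_mul_of_nonneg_left (hbe x) hk0.le
          _ = 1 := hk
    have h5 := h2 _ hmem
    have h6 : ∑ x ∈ Y, ((s x * z x : ℤ) : ℝ) * (inner ℝ (l x) ((2 : ℝ) ^ k • e') : ℝ) ^ 2 =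
        ((2 : ℝ) ^ k) ^ 2 * ∑ x ∈ Y, ((s x * z x : ℤ) : ℝ) * (inner ℝ (l x) e' : ℝ) ^ 2 := by
      rw [Finset.mul_sum]
      refine Finset.sum_congr rfl fun x _ => ?_
      rw [real_inner_smul_right]
      ring
    rw [h6, abs_mul, abs_of_pos (by positivity : (0 : ℝ) < ((2 : ℝ) ^ k) ^ 2)] at h5
    have h7 : a * (2 : ℝ) ^ (i + (2 + 2 * k)) = ((2 : ℝ) ^ k) ^ 2 * (4 * a * 2 ^ i) := by
      rw [pow_add, pow_add, pow_mul']
      ring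
    rw [h7] at h5
    exact le_of_mul_le_mul_left h5 (by positivity)
  rw [hsum, ← hη]
  calc |_ + _ + _| ≤ |_| + |_| + |_| := abs_add_three _ _ _
    _ ≤ η * 2 ^ i + 4 * η * 2 ^ i + 4 * a * 2 ^ i := add_le_add (add_le_add t1 t2) t3
    _ = (5 * η + 4 * a) * 2 ^ i := by ring

theorem GramA_iter {Y : Finset Q} {l : Q → E d} {s z : Q → ℤ} (hs : ∀ x, s x = 1 ∨ s x = -1)
    (hz : ∀ x ∈ Y, z x = 1 ∨ z x = -1) {k : ℕ} {N : ℝ} (hN : (Y.card : ℝ) ≤ N) (I : ℕ) : ∀ (i : ℕ)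
    (_ : ∀ j < I, LevelOk Y l s z k (i + j * (2 + 2 * k))),
    Bd Y l s z i (5 * (4 ^ I - 1) / 3 * (1 / 2) ^ k + 4 ^ I * (N / 2 ^ (i + I * (2 + 2 * k)))) := by
  induction I with
  | zero =>
    intro i _
    refine GramA_mono (Bd_base (i := i) hs hz hN) ?_
    simp
  | succ I ih =>
    intro i h
    have h1 := h 0 (Nat.succ_pos I)
    rw [zero_mul, add_zero] at h1
    have h2 := ih (i + (2 + 2 * k)) (fun j hj => by
      have h3 := h (j + 1) (Nat.succ_lt_succ hj)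
      have h4 : i + (j + 1) * (2 + 2 * k) = i + (2 + 2 * k) + j * (2 + 2 * k) := by ring
      rwa [h4] at h3)
    refine GramA_mono (Bd_step h1 h2) (le_of_eq ?_)
    have h5 : i + (2 + 2 * k) + I * (2 + 2 * k) = i + (I + 1) * (2 + 2 * k) := by ring
    rw [h5, pow_succ (4 : ℝ) I]
    ring

/-- induction on `I`: `a_I = 5 (4^I - 1)/3 * 2^{-k} + 4^I * N / 2^(i + I(2+2k))`. -/
theorem Bd_iter {Y : Finset Q} {l : Q → E d} {s z : Q → ℤ} (hs : ∀ x, s x = 1 ∨ s x = -1)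
    (hz : ∀ x ∈ Y, z x = 1 ∨ z x = -1) {k I : ℕ} {N : ℝ} (hN : (Y.card : ℝ) ≤ N) (i : ℕ)
    (h : ∀ j < I, LevelOk Y l s z k (i + j * (2 + 2 * k))) :
    Bd Y l s z i (5 * 4 ^ I * (1 / 2) ^ k + N * (1 / 4) ^ (k * I)) := by
  refine GramA_mono (GramA_iter hs hz hN I i h) ?_
  have hN0 : 0 ≤ N := (Nat.cast_nonneg _).trans hN
  have h4 : (1 : ℝ) ≤ 4 ^ I := one_le_pow₀ (by norm_num)
  refine add_le_add (mul_le_mul_of_nonneg_right ?_ (by positivity)) ?_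
  · linarith
  · have h5 : (2 : ℝ) ^ (i + I * (2 + 2 * k)) = 2 ^ i * (4 ^ I * 4 ^ (k * I)) := by
      have h6 : (4 : ℝ) = 2 ^ 2 := by norm_num
      rw [pow_add, h6, ← pow_mul, ← pow_mul, ← pow_add]
      ring
    have h7 : (1 / 4 : ℝ) ^ (k * I) = 1 / 4 ^ (k * I) := by rw [one_div, inv_pow, one_div]
    have hi : (1 : ℝ) ≤ 2 ^ i := one_le_pow₀ (by norm_num)
    have p1 : (0 : ℝ) < 4 ^ I := by positivity
    have p2 : (0 : ℝ) < 4 ^ (k * I) := by positivity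
    have p3 : (0 : ℝ) < 2 ^ i := by positivity
    rw [h5, h7]
    have h8 : (4 : ℝ) ^ I * (N / (2 ^ i * (4 ^ I * 4 ^ (k * I)))) = N * (1 / 4 ^ (k * I)) / 2 ^ i := by
      field_simp
    rw [h8]
    exact div_le_self (by positivity) hi

end P047F.III
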