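import Vale.Agent.Lib.P047F.III.GramA

/-!
# P047F, Part III, module GramC: the Gram property from good levels
-/

open Finset

namespace P047F.III

variable {Q : Type} {d : ℕ}

/-- conclusion.  `e ≠ 0`: `m = max_x |⟪l x, e⟫| > 0` (Parseval), `e₁ = e/m`; `1 = ⟪l x,e₁⟫² ≤ lev ‖e₁‖²`
for the maximal `x`, so `1/lev ≤ ‖e₁‖² ≤ card Y ≤ 2^n`; least `i` with `‖e₁‖² ≤ 2^i` has
`2^i ≤ 2 ‖e₁‖²` (for `i = 0` use `lev ≤ 1`) and `i ≤ n`; `Bd_iter` at `i`. -/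
theorem gram_of_levels [Fintype Q] {Y : Finset Q} {l : Q → E d} {s z : Q → ℤ} {lev : ℝ}
    (hF : Frame Y lev l) (hlev : 0 < lev) (hlev1 : lev ≤ 1)
    (hs : ∀ x, s x = 1 ∨ s x = -1) (hz : ∀ x ∈ Y, z x = 1 ∨ z x = -1) {n k I i1 : ℕ} {ε0 : ℝ}
    (hcard : Fintype.card Q = 2 ^ n) (htop : n + 1 + I * (2 + 2 * k) ≤ i1)
    (hg1 : 2 * (5 * 4 ^ I * (1 / 2 : ℝ) ^ k + 2 ^ n * (1 / 4 : ℝ) ^ (k * I)) ≤ ε0)
    (h : ∀ i ≤ i1, 1 / lev ≤ 2 ^ i → LevelOk Y l s z k i) : Gram Y l s ε0 z := by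
  classical
  intro e
  by_cases he : e = 0
  · rw [he]
    simp
  have hcY : (Y.card : ℝ) ≤ 2 ^ n := by
    have h1 : Y.card ≤ Fintype.card Q := Finset.card_le_univ Y
    rw [hcard] at h1
    exact_mod_cast h1
  have hpe := hF.pars e
  have hne : 0 < ‖e‖ ^ 2 := by
    have := norm_pos_iff.2 he
    positivity
  -- the maximum
  have hQ : Nonempty Q := by
    by_contra hQ
    rw [not_nonempty_iff] at hQ
    have h1 : ∑ x ∈ Y, (inner ℝ (l x) e : ℝ) ^ 2 = 0 :=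
      Finset.sum_eq_zero fun x _ => (hQ.false x).elim
    rw [h1] at hpe
    linarith
  obtain ⟨x0, -, hx0⟩ := Finset.exists_max_image (univ : Finset Q)
    (fun x => |(inner ℝ (l x) e : ℝ)|) ⟨Classical.arbitrary Q, mem_univ _⟩
  set m : ℝ := |(inner ℝ (l x0) e : ℝ)| with hm
  have hmle : ∀ x, |(inner ℝ (l x) e : ℝ)| ≤ m := fun x => hx0 x (mem_univ x)
  have hmpos : 0 < m := by
    by_contra hmn
    have h0 : ∀ x, (inner ℝ (l x) e : ℝ) = 0 := fun x =>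
      abs_eq_zero.1 (le_antisymm ((hmle x).trans (not_lt.1 hmn)) (abs_nonneg _))
    have h1 : ∑ x ∈ Y, (inner ℝ (l x) e : ℝ) ^ 2 = 0 :=
      Finset.sum_eq_zero fun x _ => by rw [h0 x]; ring
    rw [h1] at hpe
    linarith
  set e1 : E d := m⁻¹ • e with he1
  have hin : ∀ x, (inner ℝ (l x) e1 : ℝ) = m⁻¹ * inner ℝ (l x) e := fun x => by
    rw [he1, inner_smul_right]
  have hb1 : ∀ x, |(inner ℝ (l x) e1 : ℝ)| ≤ 1 := by
    intro x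
    rw [hin, abs_mul, abs_of_pos (inv_pos.2 hmpos), inv_mul_le_one₀ hmpos]
    exact hmle x
  have hn1 : ‖e1‖ ^ 2 = m⁻¹ ^ 2 * ‖e‖ ^ 2 := by
    rw [he1, norm_smul, mul_pow, Real.norm_eq_abs, sq_abs]
  have hlow : 1 / lev ≤ ‖e1‖ ^ 2 := by
    have h1 : |(inner ℝ (l x0) e1 : ℝ)| = 1 := by
      rw [hin, abs_mul, abs_of_pos (inv_pos.2 hmpos), ← hm, inv_mul_cancel₀ hmpos.ne']
    have h2 := abs_real_inner_le_norm (l x0) e1
    rw [h1] at h2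
    have h3 : (1 : ℝ) ≤ ‖l x0‖ ^ 2 * ‖e1‖ ^ 2 := by
      rw [← mul_pow]
      nlinarith
    have h4 := hF.lev_le x0
    rw [div_le_iff₀ hlev]
    nlinarith [sq_nonneg ‖e1‖]
  have hup : ‖e1‖ ^ 2 ≤ 2 ^ n := by
    rw [← hF.pars e1]
    calc ∑ x ∈ Y, (inner ℝ (l x) e1 : ℝ) ^ 2 ≤ ∑ x ∈ Y, (1 : ℝ) :=
          Finset.sum_le_sum fun x _ => by
            rw [← sq_abs]
            exact pow_le_one₀ (abs_nonneg _) (hb1 x)
      _ = Y.card := by simp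
      _ ≤ 2 ^ n := hcY
  -- the level
  have hex : ∃ i : ℕ, ‖e1‖ ^ 2 ≤ 2 ^ i := ⟨n, hup⟩
  set i := Nat.find hex with hi
  have hi1 : ‖e1‖ ^ 2 ≤ 2 ^ i := Nat.find_spec hex
  have hin' : i ≤ n := Nat.find_min' hex hup
  have hi2 : (2 : ℝ) ^ i ≤ 2 * ‖e1‖ ^ 2 := by
    rcases Nat.eq_zero_or_pos i with h0 | h0
    · rw [h0, pow_zero]
      have h1 : 1 ≤ 1 / lev := by rw [le_div_iff₀ hlev]; linarith
      linarith
    · have h1 := Nat.find_min hex (m := i - 1) (by omega)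
      push Not at h1
      have h2 : (2 : ℝ) ^ i = 2 * 2 ^ (i - 1) := by
        rw [← pow_succ']
        congr 1
        omega
      rw [h2]
      linarith
  have hlev' : ∀ j < I, LevelOk Y l s z k (i + j * (2 + 2 * k)) := by
    intro j hj
    apply h
    · have : j * (2 + 2 * k) ≤ I * (2 + 2 * k) := Nat.mul_le_mul_right _ hj.le
      omega
    · calc 1 / lev ≤ ‖e1‖ ^ 2 := hlow
        _ ≤ 2 ^ i := hi1
        _ ≤ 2 ^ (i + j * (2 + 2 * k)) := pow_le_pow_right₀ (by norm_num) (Nat.le_add_right _ _)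
  have hBd := Bd_iter hs hz hcY i hlev' e1 ⟨hi1, hb1⟩
  set a : ℝ := 5 * 4 ^ I * (1 / 2 : ℝ) ^ k + 2 ^ n * (1 / 4 : ℝ) ^ (k * I) with ha
  have ha0 : 0 ≤ a := by positivity
  have hsum : ∑ x ∈ Y, ((s x * z x : ℤ) : ℝ) * (inner ℝ (l x) e : ℝ) ^ 2 =
      m ^ 2 * ∑ x ∈ Y, ((s x * z x : ℤ) : ℝ) * (inner ℝ (l x) e1 : ℝ) ^ 2 := by
    rw [Finset.mul_sum]
    refine Finset.sum_congr rfl fun x _ => ?_
    rw [hin]
    field_simp
  have hne1 : ‖e‖ ^ 2 = m ^ 2 * ‖e1‖ ^ 2 := by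
    rw [hn1]
    field_simp
  rw [hsum, abs_mul, abs_of_pos (by positivity : 0 < m ^ 2), hne1]
  calc m ^ 2 * |∑ x ∈ Y, ((s x * z x : ℤ) : ℝ) * (inner ℝ (l x) e1 : ℝ) ^ 2|
      ≤ m ^ 2 * (a * 2 ^ i) := mul_le_mul_of_nonneg_left hBd (by positivity)
    _ ≤ m ^ 2 * (a * (2 * ‖e1‖ ^ 2)) := by gcongr
    _ = (2 * a) * (m ^ 2 * ‖e1‖ ^ 2) := by ring
    _ ≤ ε0 * (m ^ 2 * ‖e1‖ ^ 2) := mul_le_mul_of_nonneg_right hg1 (by positivity)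

end P047F.III
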