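import Vale.Agent.Lib.P047F.III.GaussQ

/-!
# P047F, Part III, module Lin: tail bounds T1, T2, failure of a test
-/

open Finset MeasureTheory

namespace P047F.III

variable {Q : Type} {d : ℕ}

/-- T1 (Chernoff): `SG` with `± λ h`, `λ = t/(2KH)`; Markov. -/
theorem tail_T1 {Y : Finset Q} {K : ℝ} {V : Finset (Q → ℤ)} (hV : SG Y K V) (hK : 0 < K)
    (h : Q → ℝ) {H t : ℝ} (hH : ∑ x ∈ Y, h x ^ 2 ≤ H) (hH0 : 0 < H) (ht : 0 < t) :
    ((V.filter fun z => t < |∑ x ∈ Y, (z x : ℝ) * h x|).card : ℝ)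
      ≤ 24 * Real.exp (-t ^ 2 / (4 * K * H)) * V.card := by
  set lam : ℝ := t / (2 * K * H) with hlam
  have hlam0 : 0 < lam := by positivity
  have key : ∀ c : ℝ, c ^ 2 = lam ^ 2 →
      ∑ z ∈ V, Real.exp (c * ∑ x ∈ Y, (z x : ℝ) * h x)
        ≤ 12 * Real.exp (t ^ 2 / (4 * K * H)) * V.card := by
    intro c hc
    have h1 := hV.sg (fun x => c * h x)
    have h2 : ∀ z : Q → ℤ, ∑ x ∈ Y, (z x : ℝ) * (c * h x) = c * ∑ x ∈ Y, (z x : ℝ) * h x := by
      intro z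
      rw [Finset.mul_sum]
      refine Finset.sum_congr rfl fun x _ => ?_
      ring
    simp only [h2] at h1
    refine h1.trans ?_
    have h3 : K * ∑ x ∈ Y, (c * h x) ^ 2 ≤ t ^ 2 / (4 * K * H) := by
      have h4 : ∑ x ∈ Y, (c * h x) ^ 2 = lam ^ 2 * ∑ x ∈ Y, h x ^ 2 := by
        rw [Finset.mul_sum]
        refine Finset.sum_congr rfl fun x _ => ?_
        rw [mul_pow, hc]
      rw [h4]
      have h5 : K * (lam ^ 2 * ∑ x ∈ Y, h x ^ 2) ≤ K * (lam ^ 2 * H) := by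
        gcongr
      refine h5.trans (le_of_eq ?_)
      rw [hlam]
      field_simp
      ring
    gcongr
  have hs : ((V.filter fun z => t < |∑ x ∈ Y, (z x : ℝ) * h x|).card : ℝ) * Real.exp (lam * t)
      ≤ ∑ z ∈ V, (Real.exp (lam * ∑ x ∈ Y, (z x : ℝ) * h x)
          + Real.exp ((-lam) * ∑ x ∈ Y, (z x : ℝ) * h x)) := by
    rw [← nsmul_eq_mul, ← Finset.sum_const]
    calc ∑ _z ∈ V.filter (fun z => t < |∑ x ∈ Y, (z x : ℝ) * h x|), Real.exp (lam * t)
        ≤ ∑ z ∈ V.filter (fun z => t < |∑ x ∈ Y, (z x : ℝ) * h x|),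
            (Real.exp (lam * ∑ x ∈ Y, (z x : ℝ) * h x)
              + Real.exp ((-lam) * ∑ x ∈ Y, (z x : ℝ) * h x)) := by
          refine Finset.sum_le_sum fun z hz => ?_
          have hz2 := (Finset.mem_filter.mp hz).2
          rcases lt_abs.mp hz2 with h6 | h6
          · have : Real.exp (lam * t) ≤ Real.exp (lam * ∑ x ∈ Y, (z x : ℝ) * h x) := by
              apply Real.exp_le_exp.mpr
              exact mul_le_mul_of_nonneg_left h6.le hlam0.le
            have := Real.exp_pos ((-lam) * ∑ x ∈ Y, (z x : ℝ) * h x)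
            linarith
          · have : Real.exp (lam * t) ≤ Real.exp ((-lam) * ∑ x ∈ Y, (z x : ℝ) * h x) := by
              apply Real.exp_le_exp.mpr
              have := mul_le_mul_of_nonneg_left h6.le hlam0.le
              linarith
            have := Real.exp_pos (lam * ∑ x ∈ Y, (z x : ℝ) * h x)
            linarith
      _ ≤ _ := by
          refine Finset.sum_le_sum_of_subset_of_nonneg (Finset.filter_subset _ _) ?_
          intro z _ _
          positivity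
  rw [Finset.sum_add_distrib] at hs
  have hk1 := key lam rfl
  have hk2 := key (-lam) (by ring)
  have hle : ((V.filter fun z => t < |∑ x ∈ Y, (z x : ℝ) * h x|).card : ℝ) * Real.exp (lam * t)
      ≤ 24 * Real.exp (t ^ 2 / (4 * K * H)) * V.card := by linarith
  have hlt : lam * t = t ^ 2 / (4 * K * H) + t ^ 2 / (4 * K * H) := by
    rw [hlam]
    field_simp
    ring
  have hneg : -t ^ 2 / (4 * K * H) = t ^ 2 / (4 * K * H) - lam * t := by
    rw [hlt]; ring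
  rw [hneg, Real.exp_sub]
  have hexp : 0 < Real.exp (lam * t) := Real.exp_pos _
  rw [show 24 * (Real.exp (t ^ 2 / (4 * K * H)) / Real.exp (lam * t)) * (V.card : ℝ)
      = (24 * Real.exp (t ^ 2 / (4 * K * H)) * V.card) / Real.exp (lam * t) by ring]
  rw [le_div_iff₀ hexp]
  exact hle

/-- T2, exponential moment, `w z = ∑ z x φ x • l x`, `λ = 1/(8K)`:
`gZ * exp (‖w‖²/(8K)) = ∫ exp ⟪sqrt (1/(4K)) • w, v⟫ gF v` (`integral_exp_inner`); exchange the finite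
sum over `V` and the integral; for fixed `v` use `SG` with `h x = sqrt (1/(4K)) φ x ⟪l x, v⟫`:
`≤ 12 exp ((1/4) ∑ φ² ⟪l x,v⟫²) |V|`; then `quad_int` with `c = 1/4`. -/
theorem moment_T2 {Y : Finset Q} {l : Q → E d} {lev K : ℝ} {V : Finset (Q → ℤ)}
    (hF : Frame Y lev l) (hlev : 0 ≤ lev) (hV : SG Y K V) (hK : 0 < K) (φ : Q → ℝ)
    (hφ : ∀ x ∈ Y, |φ x| ≤ 1) {M : ℝ} (hM : ∑ x ∈ Y, φ x ^ 2 ≤ M) :
    ∑ z ∈ V, Real.exp (‖∑ x ∈ Y, ((z x : ℝ) * φ x) • l x‖ ^ 2 / (8 * K))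
      ≤ 12 * Real.exp (lev * M / 2) * V.card := by
  set a : ℝ := Real.sqrt (1 / (4 * K)) with ha
  have ha2 : a ^ 2 = 1 / (4 * K) := Real.sq_sqrt (by positivity)
  have hZ : 0 < gZ d := gZ_pos
  -- the integral representation
  have h1 : ∀ z : Q → ℤ,
      Real.exp (‖∑ x ∈ Y, ((z x : ℝ) * φ x) • l x‖ ^ 2 / (8 * K)) * gZ d
        = ∫ v : E d, Real.exp (inner ℝ (a • ∑ x ∈ Y, ((z x : ℝ) * φ x) • l x) v) * gF v := by
    intro z
    rw [integral_exp_inner]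
    congr 2
    rw [norm_smul, mul_pow, Real.norm_eq_abs, sq_abs, ha2]
    field_simp
    ring
  obtain ⟨hint, hle⟩ := quad_int Y l hF φ hφ hM hlev (c := 1 / 4) (by norm_num) le_rfl
  have h2 : (∑ z ∈ V, Real.exp (‖∑ x ∈ Y, ((z x : ℝ) * φ x) • l x‖ ^ 2 / (8 * K))) * gZ d
      = ∫ v : E d, ∑ z ∈ V,
          Real.exp (inner ℝ (a • ∑ x ∈ Y, ((z x : ℝ) * φ x) • l x) v) * gF v := by
    rw [Finset.sum_mul, integral_finsetSum]
    · exact Finset.sum_congr rfl fun z _ => h1 z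
    · intro z _
      exact integrable_exp_inner _
  have h3 : ∀ v : E d, ∑ z ∈ V,
      Real.exp (inner ℝ (a • ∑ x ∈ Y, ((z x : ℝ) * φ x) • l x) v) * gF v
        ≤ (12 * V.card) *
          (Real.exp (1 / 4 * ∑ x ∈ Y, φ x ^ 2 * (inner ℝ (l x) v : ℝ) ^ 2) * gF v) := by
    intro v
    rw [← Finset.sum_mul]
    have h4 := hV.sg (fun x => a * φ x * (inner ℝ (l x) v : ℝ))
    have h5 : ∀ z : Q → ℤ,
        (inner ℝ (a • ∑ x ∈ Y, ((z x : ℝ) * φ x) • l x) v : ℝ)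
          = ∑ x ∈ Y, (z x : ℝ) * (a * φ x * (inner ℝ (l x) v : ℝ)) := by
      intro z
      rw [real_inner_smul_left, sum_inner, Finset.mul_sum]
      refine Finset.sum_congr rfl fun x _ => ?_
      rw [real_inner_smul_left]
      ring
    simp only [h5]
    have h6 : K * ∑ x ∈ Y, (a * φ x * (inner ℝ (l x) v : ℝ)) ^ 2
        = 1 / 4 * ∑ x ∈ Y, φ x ^ 2 * (inner ℝ (l x) v : ℝ) ^ 2 := by
      have h7 : ∑ x ∈ Y, (a * φ x * (inner ℝ (l x) v : ℝ)) ^ 2
          = a ^ 2 * ∑ x ∈ Y, φ x ^ 2 * (inner ℝ (l x) v : ℝ) ^ 2 := by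
        rw [Finset.mul_sum]
        refine Finset.sum_congr rfl fun x _ => ?_
        ring
      rw [h7, ha2, ← mul_assoc]
      congr 1
      field_simp
    rw [h6] at h4
    have hg : 0 ≤ gF v := (Real.exp_pos _).le
    calc (∑ z ∈ V, Real.exp (∑ x ∈ Y, (z x : ℝ) * (a * φ x * (inner ℝ (l x) v : ℝ)))) * gF v
        ≤ (12 * Real.exp (1 / 4 * ∑ x ∈ Y, φ x ^ 2 * (inner ℝ (l x) v : ℝ) ^ 2) * V.card)
            * gF v := mul_le_mul_of_nonneg_right h4 hg
      _ = _ := by ring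
  have h8 : (∑ z ∈ V, Real.exp (‖∑ x ∈ Y, ((z x : ℝ) * φ x) • l x‖ ^ 2 / (8 * K))) * gZ d
      ≤ (12 * V.card) * (Real.exp (2 * (1 / 4) * (lev * M)) * gZ d) := by
    rw [h2]
    calc ∫ v : E d, ∑ z ∈ V,
          Real.exp (inner ℝ (a • ∑ x ∈ Y, ((z x : ℝ) * φ x) • l x) v) * gF v
        ≤ ∫ v : E d, (12 * V.card) *
          (Real.exp (1 / 4 * ∑ x ∈ Y, φ x ^ 2 * (inner ℝ (l x) v : ℝ) ^ 2) * gF v) := by
          refine integral_mono ?_ (hint.const_mul _) h3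
          exact integrable_finsetSum _ fun z _ => integrable_exp_inner _
      _ = (12 * V.card) * ∫ v : E d,
          (Real.exp (1 / 4 * ∑ x ∈ Y, φ x ^ 2 * (inner ℝ (l x) v : ℝ) ^ 2) * gF v) := by
          rw [integral_const_mul]
      _ ≤ _ := mul_le_mul_of_nonneg_left hle (by positivity)
  have h9 : (12 * (V.card : ℝ)) * (Real.exp (2 * (1 / 4) * (lev * M)) * gZ d)
      = (12 * Real.exp (lev * M / 2) * V.card) * gZ d := by
    rw [show 2 * (1 / 4) * (lev * M) = lev * M / 2 by ring]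
    ring
  rw [h9] at h8
  exact le_of_mul_le_mul_right h8 hZ

/-- T2: Markov from `moment_T2`. -/
theorem tail_T2 {Y : Finset Q} {l : Q → E d} {lev K : ℝ} {V : Finset (Q → ℤ)}
    (hF : Frame Y lev l) (hlev : 0 ≤ lev) (hV : SG Y K V) (hK : 0 < K) (φ : Q → ℝ)
    (hφ : ∀ x ∈ Y, |φ x| ≤ 1) {M : ℝ} (hM : ∑ x ∈ Y, φ x ^ 2 ≤ M) (R : ℝ) :
    ((V.filter fun z => R < ‖∑ x ∈ Y, ((z x : ℝ) * φ x) • l x‖ ^ 2).card : ℝ)
      ≤ 12 * Real.exp (-R / (8 * K) + lev * M / 2) * V.card := by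
  have h1 := moment_T2 hF hlev hV hK φ hφ hM
  have h2 : ((V.filter fun z => R < ‖∑ x ∈ Y, ((z x : ℝ) * φ x) • l x‖ ^ 2).card : ℝ)
      * Real.exp (R / (8 * K))
      ≤ ∑ z ∈ V, Real.exp (‖∑ x ∈ Y, ((z x : ℝ) * φ x) • l x‖ ^ 2 / (8 * K)) := by
    rw [← nsmul_eq_mul, ← Finset.sum_const]
    calc ∑ _z ∈ V.filter (fun z => R < ‖∑ x ∈ Y, ((z x : ℝ) * φ x) • l x‖ ^ 2),
          Real.exp (R / (8 * K))
        ≤ ∑ z ∈ V.filter (fun z => R < ‖∑ x ∈ Y, ((z x : ℝ) * φ x) • l x‖ ^ 2),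
          Real.exp (‖∑ x ∈ Y, ((z x : ℝ) * φ x) • l x‖ ^ 2 / (8 * K)) := by
          refine Finset.sum_le_sum fun z hz => ?_
          have hz2 := (Finset.mem_filter.mp hz).2
          apply Real.exp_le_exp.mpr
          exact div_le_div_of_nonneg_right hz2.le (by positivity)
      _ ≤ _ := by
          refine Finset.sum_le_sum_of_subset_of_nonneg (Finset.filter_subset _ _) ?_
          intro z _ _
          positivity
  have h3 := h2.trans h1
  rw [Real.exp_add, neg_div, Real.exp_neg]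
  have hexp : 0 < Real.exp (R / (8 * K)) := Real.exp_pos _
  rw [show 12 * ((Real.exp (R / (8 * K)))⁻¹ * Real.exp (lev * M / 2)) * (V.card : ℝ)
      = (12 * Real.exp (lev * M / 2) * V.card) / Real.exp (R / (8 * K)) by
        rw [div_eq_mul_inv]; ring]
  rw [le_div_iff₀ hexp]
  exact h3

end P047F.III
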