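import Vale.Agent.Lib.P047F.III.GaussA

/-!
# P047F, Part III, module NetH: half of the Gaussian mass
-/

open Finset MeasureTheory

namespace P047F.III

variable {Q : Type} [Fintype Q] {d : ℕ}

/-- `S = {v | ∀ x, |⟪l x, v⟫| ≤ ρ}`, `ρ = sqrt (2 lev log (4N))`, has at least half of the Gaussian
mass: `tail_inner` gives `2 exp (-log (4N)) = 1/(2N)` for each `x`, union bound over `Q`. -/
theorem half_mass [Nonempty Q] (l : Q → E d) {lev : ℝ} (hlev : 0 < lev) (hl : ∀ x, ‖l x‖ ^ 2 ≤ lev)
    {ρ : ℝ} (hρ : 0 < ρ) (hρ2 : 2 * lev * Real.log (4 * Fintype.card Q) ≤ ρ ^ 2) :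
    gZ d / 2 ≤ ∫ v in {v : E d | ∀ x, |(inner ℝ (l x) v : ℝ)| ≤ ρ}, gF v := by
  classical
  have hgF : ∀ v : E d, 0 ≤ gF v := fun v => (Real.exp_pos _).le
  set T : Q → Set (E d) := fun x => {v | ρ < |(inner ℝ (l x) v : ℝ)|} with hT
  have hTm : ∀ x, MeasurableSet (T x) := fun x =>
    (isOpen_lt continuous_const (by fun_prop)).measurableSet
  set S : Set (E d) := {v : E d | ∀ x, |(inner ℝ (l x) v : ℝ)| ≤ ρ} with hS
  have hSm : MeasurableSet S := by
    have : S = ⋂ x, (T x)ᶜ := by
      ext v
      simp [hS, hT]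
    rw [this]
    exact MeasurableSet.iInter fun x => (hTm x).compl
  have h1 : (∫ v in S, gF v) + ∫ v in Sᶜ, gF v = gZ d := integral_add_compl hSm integrable_gF
  have h2 : ∫ v in Sᶜ, gF v ≤ ∑ x, ∫ v in T x, gF v := by
    have e : ∀ x, ∫ v in T x, gF v = ∫ v, (T x).indicator gF v := fun x =>
      (integral_indicator (hTm x)).symm
    rw [← integral_indicator hSm.compl]
    simp_rw [e]
    rw [← integral_finsetSum _ (fun x _ => integrable_gF.indicator (hTm x))]
    refine integral_mono (integrable_gF.indicator hSm.compl)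
      (integrable_finsetSum _ fun x _ => integrable_gF.indicator (hTm x)) fun v => ?_
    by_cases hv : v ∈ S
    · rw [Set.indicator_of_notMem (by simpa using hv)]
      exact Finset.sum_nonneg fun x _ => Set.indicator_nonneg (fun v _ => hgF v) _
    · have hx' : ∃ x, v ∈ T x := by
        by_contra hcon
        rw [not_exists] at hcon
        exact hv fun x => not_lt.1 (hcon x)
      obtain ⟨x, hx⟩ := hx'
      rw [Set.indicator_of_mem (show v ∈ Sᶜ from hv)]
      have h4 : (T x).indicator gF v ≤ ∑ x, (T x).indicator gF v :=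
        Finset.single_le_sum (f := fun x => (T x).indicator gF v)
          (fun x _ => Set.indicator_nonneg (fun v _ => hgF v) _) (Finset.mem_univ x)
      rw [Set.indicator_of_mem hx] at h4
      exact h4
  have hN : (0 : ℝ) < 4 * Fintype.card Q := by
    have : (0 : ℝ) < Fintype.card Q := by exact_mod_cast Fintype.card_pos
    linarith
  have h3 : ∀ x, ∫ v in T x, gF v ≤ 2 * (1 / (4 * Fintype.card Q)) * gZ d := by
    intro x
    refine (tail_inner (l x) (hl x) hlev hρ).trans ?_
    refine mul_le_mul_of_nonneg_right ?_ gZ_pos.le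
    refine mul_le_mul_of_nonneg_left ?_ zero_le_two
    have h5 : (1 : ℝ) / (4 * Fintype.card Q) = Real.exp (-Real.log (4 * Fintype.card Q)) := by
      rw [Real.exp_neg, Real.exp_log hN, one_div]
    rw [h5, Real.exp_le_exp, div_le_iff₀ (by positivity)]
    linarith
  have h6 : ∑ x, ∫ v in T x, gF v ≤ gZ d / 2 := by
    calc ∑ x, ∫ v in T x, gF v ≤ ∑ _x : Q, 2 * (1 / (4 * Fintype.card Q)) * gZ d :=
          Finset.sum_le_sum fun x _ => h3 x
      _ = gZ d / 2 := by
          rw [Finset.sum_const, nsmul_eq_mul, Finset.card_univ]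
          have hN' : (Fintype.card Q : ℝ) ≠ 0 := by
            intro h
            rw [h] at hN
            norm_num at hN
          field_simp
          ring
  linarith

end P047F.III
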