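import Vale.Agent.Lib.P047F.III.NetH

/-!
# P047F, Part III, module NetP: dual Sudakov packing bound
-/

open Finset MeasureTheory

namespace P047F.III

variable {Q : Type} [Fintype Q] {d : ℕ}

/-- dual Sudakov: the translates `(2ρ/η) • b + S`, `b ∈ P`, are disjoint (`S` from `half_mass`), each
has Gaussian mass at least `exp (-(2ρ/η)² M/2) * gZ/2` (`shift_ge`), and the total is at most `gZ`. -/
theorem packing [Nonempty Q] (l : Q → E d) {lev : ℝ} (hlev : 0 < lev) (hl : ∀ x, ‖l x‖ ^ 2 ≤ lev)
    {M η : ℝ} (hM : 0 ≤ M) (hη : 0 < η) (P : Finset (E d)) (hP : ∀ b ∈ P, ‖b‖ ^ 2 ≤ M)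
    (hsep : ∀ b ∈ P, ∀ b' ∈ P, b ≠ b' → ∃ x, η < |(inner ℝ (l x) (b - b') : ℝ)|) :
    (P.card : ℝ) ≤ 2 * Real.exp (4 * lev * Real.log (4 * Fintype.card Q) * M / η ^ 2) := by
  have hcard : (1 : ℝ) ≤ (Fintype.card Q : ℝ) := by
    exact_mod_cast Nat.succ_le_of_lt (Fintype.card_pos (α := Q))
  have hlog : 0 < Real.log (4 * (Fintype.card Q : ℝ)) := Real.log_pos (by linarith)
  set L : ℝ := Real.log (4 * (Fintype.card Q : ℝ)) with hL
  have hpos : 0 < 2 * lev * L := by positivity
  set ρ : ℝ := Real.sqrt (2 * lev * L) with hρdef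
  have hρ : 0 < ρ := Real.sqrt_pos.2 hpos
  have hρ2 : ρ ^ 2 = 2 * lev * L := Real.sq_sqrt hpos.le
  have hhalf := half_mass l hlev hl hρ (by rw [hρ2])
  set S : Set (E d) := {v : E d | ∀ x, |(inner ℝ (l x) v : ℝ)| ≤ ρ} with hS
  have hSm : MeasurableSet S := by
    have : IsClosed S := by
      rw [hS, Set.ofPred_forall]
      exact isClosed_iInter fun x => isClosed_le (by fun_prop) continuous_const
    exact this.measurableSet
  have hsym : ∀ v, v ∈ S → -v ∈ S := by
    intro v hv x
    rw [inner_neg_right, abs_neg]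
    exact hv x
  set c : ℝ := 2 * ρ / η with hc
  have hc0 : 0 < c := by positivity
  -- translates
  let T : E d → Set (E d) := fun b => {w : E d | w - c • b ∈ S}
  have hTm : ∀ b, MeasurableSet (T b) := by
    intro b
    exact hSm.preimage (measurable_id.sub_const (c • b))
  have htrans : ∀ b, ∫ v in S, gF (v + c • b) = ∫ w in T b, gF w := by
    intro b
    rw [← integral_indicator hSm, ← integral_indicator (hTm b),
      ← integral_add_right_eq_self (μ := (volume : Measure (E d)))
        (fun w => (T b).indicator gF w) (c • b)]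
    congr 1
    funext v
    by_cases hv : v ∈ S
    · have h2 : v + c • b ∈ T b := by
        change v + c • b - c • b ∈ S
        rwa [add_sub_cancel_right]
      rw [Set.indicator_of_mem hv, Set.indicator_of_mem h2]
    · have h2 : v + c • b ∉ T b := by
        intro h3
        apply hv
        have h4 : v + c • b - c • b ∈ S := h3
        rwa [add_sub_cancel_right] at h4
      rw [Set.indicator_of_notMem hv, Set.indicator_of_notMem h2]
  have hdisj : (P : Set (E d)).Pairwise (Function.onFun Disjoint T) := by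
    intro b hb b' hb' hne
    rw [Function.onFun, Set.disjoint_left]
    intro w hw hw'
    obtain ⟨x, hx⟩ := hsep b hb b' hb' hne
    have h1 : |(inner ℝ (l x) (w - c • b) : ℝ)| ≤ ρ := hw x
    have h2 : |(inner ℝ (l x) (w - c • b') : ℝ)| ≤ ρ := hw' x
    have h3 : c * (inner ℝ (l x) (b - b') : ℝ)
        = inner ℝ (l x) (w - c • b') - inner ℝ (l x) (w - c • b) := by
      rw [← inner_sub_right, ← real_inner_smul_right]
      congr 1
      rw [smul_sub]
      abel
    have h4 : c * |(inner ℝ (l x) (b - b') : ℝ)| ≤ 2 * ρ := by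
      rw [← abs_of_pos hc0, ← abs_mul, h3]
      refine (abs_sub _ _).trans ?_
      linarith
    have h5 : c * η < c * |(inner ℝ (l x) (b - b') : ℝ)| := by
      exact mul_lt_mul_of_pos_left hx hc0
    have h6 : c * η = 2 * ρ := by
      rw [hc]
      field_simp
    linarith
  have hsum : ∑ b ∈ P, ∫ w in T b, gF w ≤ gZ d := by
    rw [← integral_biUnion_finset P (fun b _ => hTm b) hdisj
      (fun b _ => integrable_gF.integrableOn)]
    exact setIntegral_le_integral integrable_gF
      (Filter.Eventually.of_forall fun v => (Real.exp_pos _).le)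
  have hZ : 0 < gZ d := gZ_pos
  have hlow : ∀ b ∈ P, Real.exp (-(c ^ 2 * M / 2)) * (gZ d / 2) ≤ ∫ w in T b, gF w := by
    intro b hb
    rw [← htrans b]
    refine le_trans ?_ (shift_ge S hSm hsym (c • b))
    have h1 : -(c ^ 2 * M / 2) ≤ -‖c • b‖ ^ 2 / 2 := by
      rw [norm_smul, Real.norm_of_nonneg hc0.le, mul_pow]
      have := mul_le_mul_of_nonneg_left (hP b hb) (sq_nonneg c)
      linarith
    exact mul_le_mul (Real.exp_le_exp.2 h1) hhalf (by positivity) (Real.exp_pos _).le
  have htot : (P.card : ℝ) * (Real.exp (-(c ^ 2 * M / 2)) * (gZ d / 2)) ≤ gZ d := by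
    refine le_trans ?_ hsum
    rw [← nsmul_eq_mul]
    exact Finset.card_nsmul_le_sum P _ _ hlow
  have hexp : c ^ 2 * M / 2 = 4 * lev * L * M / η ^ 2 := by
    rw [hc, div_pow, mul_pow, hρ2]
    field_simp
    ring
  rw [← hexp]
  have h7 : Real.exp (-(c ^ 2 * M / 2)) * Real.exp (c ^ 2 * M / 2) = 1 := by
    rw [← Real.exp_add, neg_add_cancel, Real.exp_zero]
  have h8 : (P.card : ℝ) * Real.exp (-(c ^ 2 * M / 2)) ≤ 2 := by
    by_contra hcon
    push Not at hcon
    have := mul_lt_mul_of_pos_right hcon (half_pos hZ)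
    nlinarith
  calc (P.card : ℝ) = (P.card : ℝ) * Real.exp (-(c ^ 2 * M / 2)) * Real.exp (c ^ 2 * M / 2) := by
        rw [mul_assoc, h7, mul_one]
    _ ≤ 2 * Real.exp (c ^ 2 * M / 2) :=
        mul_le_mul_of_nonneg_right h8 (Real.exp_pos _).le

end P047F.III
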